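import Mathlib

/-!
P086: the moments of the semicircular law in the form `x = 2 cos φ`.
-/

namespace VP086.Model

open Real intervalIntegral Finset

/-- The moments of the semicircular law, as integrals over `φ ∈ [0, π]`. -/
noncomputable def scMoment (n : ℕ) : ℝ :=
  2 / π * ∫ x in (0 : ℝ)..π, (2 * Real.cos x) ^ n * Real.sin x ^ 2

/-- The integrals of powers of the cosine over a half period. -/
noncomputable def cosInt (n : ℕ) : ℝ := ∫ x in (0 : ℝ)..π, Real.cos x ^ n

theorem cosInt_zero : cosInt 0 = π := by simp [cosInt]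

theorem cosInt_one : cosInt 1 = 0 := by simp [cosInt, integral_cos]

theorem cosInt_add_two (n : ℕ) :
    cosInt (n + 2) = ((n : ℝ) + 1) / (n + 2) * cosInt n := by
  simp [cosInt, integral_cos_pow (n := n)]

theorem cosInt_odd (k : ℕ) : cosInt (2 * k + 1) = 0 := by
  induction k with
  | zero => exact cosInt_one
  | succ k ih =>
    rw [show 2 * (k + 1) + 1 = 2 * k + 1 + 2 by ring, cosInt_add_two, ih, mul_zero]

theorem cosInt_even (k : ℕ) : cosInt (2 * k) * 4 ^ k = π * Nat.centralBinom k := by
  induction k with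
  | zero => simp [cosInt_zero]
  | succ k ih =>
    have h : ((k : ℝ) + 1) * Nat.centralBinom (k + 1) = 2 * (2 * k + 1) * Nat.centralBinom k := by
      exact_mod_cast Nat.succ_mul_centralBinom_succ k
    rw [show 2 * (k + 1) = 2 * k + 2 by ring, cosInt_add_two, pow_succ]
    push_cast
    field_simp
    linear_combination (4 * (2 * (k : ℝ) + 1)) * ih - 2 * π * h

theorem scMoment_eq (n : ℕ) : scMoment n = 2 / π * 2 ^ n * (cosInt n / (n + 2)) := by
  have h : ∀ x : ℝ, (2 * Real.cos x) ^ n * Real.sin x ^ 2 =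
      2 ^ n * (Real.cos x ^ n - Real.cos x ^ (n + 2)) := fun x => by
    rw [Real.sin_sq, mul_pow]
    ring
  have hn : (n : ℝ) + 2 ≠ 0 := by positivity
  simp only [scMoment, h, integral_const_mul]
  rw [intervalIntegral.integral_sub (Continuous.intervalIntegrable (by fun_prop) _ _)
    (Continuous.intervalIntegrable (by fun_prop) _ _)]
  change _ * (_ * (cosInt n - cosInt (n + 2))) = _
  rw [cosInt_add_two]
  field_simp
  ring

theorem scMoment_odd (k : ℕ) : scMoment (2 * k + 1) = 0 := by
  simp [scMoment_eq, cosInt_odd]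

theorem scMoment_even (k : ℕ) : scMoment (2 * k) = (catalan k : ℝ) := by
  have h : ((k : ℝ) + 1) * catalan k = Nat.centralBinom k := by
    exact_mod_cast succ_mul_catalan_eq_centralBinom k
  have h2 : (2 : ℝ) ^ (2 * k) = 4 ^ k := by rw [pow_mul]; norm_num
  have h3 : ((2 * k : ℕ) : ℝ) + 2 = 2 * (k + 1) := by push_cast; ring
  rw [scMoment_eq, h2, h3]
  field_simp
  linear_combination cosInt_even k - π * h

theorem scMoment_zero : scMoment 0 = 1 := by simpa using scMoment_even 0

theorem scMoment_one : scMoment 1 = 0 := scMoment_odd 0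

/-- The Schwinger-Dyson recursion. -/
theorem scMoment_rec (m : ℕ) :
    scMoment (m + 1) = ∑ i ∈ range m, scMoment i * scMoment (m - 1 - i) := by
  rcases Nat.even_or_odd m with ⟨k, rfl⟩ | ⟨k, rfl⟩
  · rw [show k + k + 1 = 2 * k + 1 by ring, scMoment_odd]
    refine (sum_eq_zero fun i hi => ?_).symm
    rw [mem_range] at hi
    rcases Nat.even_or_odd i with ⟨j, rfl⟩ | ⟨j, rfl⟩
    · rw [show k + k - 1 - (j + j) = 2 * (k - j - 1) + 1 by omega, scMoment_odd, mul_zero]
    · rw [scMoment_odd, zero_mul]
  · rw [show 2 * k + 1 + 1 = 2 * (k + 1) by ring, scMoment_even, catalan_succ,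
      Nat.add_sub_cancel, ← Fin.sum_univ_eq_sum_range]
    have hsum : ∀ (f : ℕ → ℝ), (∀ j, f (2 * j + 1) = 0) →
        ∀ k, ∑ i ∈ range (2 * k + 1), f i = ∑ j ∈ range (k + 1), f (2 * j) := by
      intro f hf k
      induction k with
      | zero => simp
      | succ k ih =>
        rw [show 2 * (k + 1) + 1 = 2 * k + 1 + 1 + 1 by ring, sum_range_succ, sum_range_succ,
          sum_range_succ _ (k + 1), hf, add_zero, ih]
        ring_nf
    rw [Fin.sum_univ_eq_sum_range (fun i => scMoment i * scMoment (2 * k - i)),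
      hsum _ (fun j => by rw [scMoment_odd, zero_mul]) k]
    push_cast
    rw [Fin.sum_univ_eq_sum_range (fun i => (catalan i : ℝ) * (catalan (k - i) : ℝ)) (k + 1)]
    refine sum_congr rfl fun j hj => ?_
    rw [mem_range] at hj
    rw [show 2 * k - 2 * j = 2 * (k - j) by omega, scMoment_even, scMoment_even]

end VP086.Model
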