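import Vale.Agent.P086.Model.Calculus

/-!
P086: the functions of a Haar unitary used in the model: the arcs, and a semicircular element
generating the same algebra.
-/

open scoped InnerProductSpace Topology Real
open MeasureTheory Filter Set

namespace VP086.Calc

/-- The angle in `[0, 1)`. -/
noncomputable def theta (x : UnitAddCircle) : ℝ := (AddCircle.equivIco 1 0 x : ℝ)

lemma theta_mem (x : UnitAddCircle) : theta x ∈ Ico (0 : ℝ) 1 := by
  simpa [theta] using (AddCircle.equivIco 1 0 x).2

lemma measurable_theta : Measurable theta :=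
  measurable_subtype_coe.comp (AddCircle.measurableEquivIco 1 0).measurable

lemma coe_theta (x : UnitAddCircle) : ((theta x : ℝ) : UnitAddCircle) = x :=
  (AddCircle.equivIco 1 0).symm_apply_apply x

lemma theta_coe {t : ℝ} (ht : t ∈ Ico (0 : ℝ) 1) : theta (t : UnitAddCircle) = t := by
  rw [theta, AddCircle.equivIco_coe_eq (by simpa using ht)]

lemma integral_theta {E : Type*} [NormedAddCommGroup E] [NormedSpace ℝ E] (G : ℝ → E) :
    ∫ x : UnitAddCircle, G (theta x) = ∫ t in (0 : ℝ)..1, G t := by
  rw [← UnitAddCircle.intervalIntegral_preimage 0, zero_add]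
  refine intervalIntegral.integral_congr_ae ?_
  filter_upwards [(volume : Measure ℝ).ae_ne 1] with t ht1 ht
  rw [uIoc_of_le zero_le_one] at ht
  rw [theta_coe ⟨ht.1.le, lt_of_le_of_ne ht.2 ht1⟩]

/-! ### The quantile of the semicircle law -/

/-- The semicircle distribution function in the angle. -/
noncomputable def dist' (p : ℝ) : ℝ := (p - Real.sin p * Real.cos p) / π

lemma dist'_eq (p : ℝ) : dist' p = (p - Real.sin (2 * p) / 2) / π := by
  rw [dist', Real.sin_two_mul]; ring

lemma hasDerivAt_dist' (p : ℝ) : HasDerivAt dist' (2 * Real.sin p ^ 2 / π) p := by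
  have h := ((hasDerivAt_id p).sub ((Real.hasDerivAt_sin p).mul (Real.hasDerivAt_cos p))).div_const π
  refine h.congr_deriv ?_
  congr 1
  linear_combination -(Real.sin_sq_add_cos_sq p)

lemma strictMono_dist' : StrictMono dist' := by
  intro a b hab
  rw [dist'_eq, dist'_eq, div_lt_div_iff_of_pos_right Real.pi_pos]
  have h1 : |Real.sin (b - a)| < b - a := by
    simpa [abs_of_pos (sub_pos.2 hab)] using Real.abs_sin_lt_abs (sub_ne_zero.2 (ne_of_gt hab))
  have h2 : Real.sin (2 * b) - Real.sin (2 * a) = 2 * Real.sin (b - a) * Real.cos (b + a) := by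
    rw [Real.sin_sub_sin]; ring_nf
  have h3 : |Real.sin (b - a) * Real.cos (b + a)| ≤ |Real.sin (b - a)| := by
    rw [abs_mul]; exact mul_le_of_le_one_right (abs_nonneg _) (Real.abs_cos_le_one _)
  have h4 := le_abs_self (Real.sin (b - a) * Real.cos (b + a))
  linarith

lemma continuous_dist' : Continuous dist' := by unfold dist'; fun_prop

lemma dist'_zero : dist' 0 = 0 := by simp [dist']

lemma dist'_pi : dist' π = 1 := by simp [dist', Real.pi_ne_zero]

lemma surjective_dist' : Function.Surjective dist' := by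
  intro y
  set M := (|y| + 1) * π + 1 with hM
  have hpi := Real.pi_pos
  have hb : ∀ p, |dist' p - p / π| ≤ 1 / π := fun p => by
    rw [dist', sub_div, sub_sub_cancel_left, abs_neg, abs_div, abs_of_pos hpi]
    gcongr
    rw [abs_mul]
    exact mul_le_one₀ (Real.abs_sin_le_one p) (abs_nonneg _) (Real.abs_cos_le_one p)
  have e : M / π = |y| + 1 + 1 / π := by rw [hM]; field_simp
  have hu := abs_le.1 (hb M)
  have hl := abs_le.1 (hb (-M))
  rw [neg_div, e] at hl
  rw [e] at hu
  have hM0 : -M ≤ M := by
    have : 0 ≤ (|y| + 1) * π := by positivity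
    linarith
  obtain ⟨x, -, hx⟩ := intermediate_value_Icc hM0 continuous_dist'.continuousOn
    (show y ∈ Icc (dist' (-M)) (dist' M) from
      ⟨by linarith [neg_abs_le y], by linarith [le_abs_self y]⟩)
  exact ⟨x, hx⟩

/-- The quantile in the angle. -/
noncomputable def quant : ℝ ≃o ℝ :=
  (StrictMono.orderIsoOfSurjective dist' strictMono_dist' surjective_dist').symm

lemma dist'_quant (t : ℝ) : dist' (quant t) = t :=
  (StrictMono.orderIsoOfSurjective dist' strictMono_dist' surjective_dist').apply_symm_apply t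

lemma quant_dist' (p : ℝ) : quant (dist' p) = p :=
  (StrictMono.orderIsoOfSurjective dist' strictMono_dist' surjective_dist').symm_apply_apply p

lemma quant_mem {t : ℝ} (ht : t ∈ Icc (0 : ℝ) 1) : quant t ∈ Icc 0 π := by
  constructor
  · rw [← quant_dist' 0, dist'_zero]; exact quant.monotone ht.1
  · rw [← quant_dist' π, dist'_pi]; exact quant.monotone ht.2

/-- The semicircular variable on the circle. -/
noncomputable def semiFun (x : UnitAddCircle) : ℝ := 2 * Real.cos (quant (theta x))

lemma measurable_semiFun : Measurable semiFun :=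
  ((Real.continuous_cos.comp quant.continuous).const_mul 2).measurable.comp measurable_theta

lemma semiFun_mem (x : UnitAddCircle) : semiFun x ∈ Icc (-2 : ℝ) 2 := by
  have := Real.neg_one_le_cos (quant (theta x))
  have := Real.cos_le_one (quant (theta x))
  constructor <;> simp only [semiFun] <;> linarith

variable {A : Type} [CStarAlgebra A] {H : Type} [NormedAddCommGroup H] [InnerProductSpace ℂ H]
  {S : Std A H} {u : unitary A}

/-- Continuous functions of the semicircular variable. -/
noncomputable def compSemi : C(Icc (-2 : ℝ) 2, ℂ) →⋆ₐ[ℂ] bdFun where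
  toFun h := ⟨fun x => h ⟨semiFun x, semiFun_mem x⟩,
    h.continuous.measurable.comp (measurable_semiFun.subtype_mk),
    ‖h‖, fun x => h.norm_coe_le_norm _⟩
  map_one' := rfl
  map_mul' _ _ := rfl
  map_zero' := rfl
  map_add' _ _ := rfl
  commutes' _ := rfl
  map_star' _ := rfl

/-- The identity on `[-2, 2]`. -/
def idSemi : C(Icc (-2 : ℝ) 2, ℂ) := ⟨fun y => ((y : ℝ) : ℂ), by fun_prop⟩

variable (hinj : Function.Injective S.ι) (hc : BallComplete S)
  (hu : ∀ n : ℤ, n ≠ 0 → S.τ ((u ^ n : unitary A) : A) = 0)

include hu in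
lemma isHaar : IsHaar S u := fun n => by
  split_ifs with h
  · subst h
    show ⟪S.ι 1, S.ι ((u ^ (0 : ℤ) : unitary A) : A)⟫_ℂ = 1
    rw [zpow_zero, OneMemClass.coe_one, inner_self_eq_norm_sq_to_K, S.norm_one]
    simp
  · exact hu n h

/-- The algebra of bounded measurable functions of `u`, in which the arcs live. -/
noncomputable def arcsAlg : StarSubalgebra ℂ A := funAlg (isHaar hu) hc hinj

lemma mem_arcsAlg_self : (u : A) ∈ arcsAlg hinj hc hu := u_mem_funAlg _ _ _

/-- Functions of `u` leave invariant what the powers of `u` leave invariant. -/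
theorem invariant {a : A} (ha : a ∈ arcsAlg hinj hc hu) {K : Submodule ℂ H}
    (hK : IsClosed (K : Set H)) {x : A} (hx : ∀ n : ℤ, S.ι (((u ^ n : unitary A) : A) * x) ∈ K) :
    S.ι (a * x) ∈ K :=
  mem_of_powers _ _ _ ha hK hx

/-- The arcs. -/
theorem arcs : ∀ K : ℕ, 0 < K → ∃ p : Fin K → A, (∀ i, p i ∈ arcsAlg hinj hc hu) ∧
    (∀ i, star (p i) = p i) ∧ (∀ i j, p i * p j = if i = j then p i else 0) ∧ ∑ i, p i = 1 ∧
    ∀ i, S.τ (p i) = 1 / K := by
  intro K hK
  classical
  set idx : UnitAddCircle → ℕ := fun x => ⌊(K : ℝ) * theta x⌋₊ with hidx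
  have hidxm : Measurable idx := (measurable_theta.const_mul _).nat_floor
  have hKR : (0 : ℝ) < K := Nat.cast_pos.2 hK
  have hlt : ∀ x, idx x < K := fun x => by
    rw [hidx, Nat.floor_lt (mul_nonneg hKR.le (theta_mem x).1)]
    exact mul_lt_of_lt_one_right hKR (theta_mem x).2
  set ind : Fin K → bdFun := fun i => ⟨fun x => if idx x = (i : ℕ) then 1 else 0,
    Measurable.ite (measurableSet_eq_fun hidxm measurable_const) measurable_const measurable_const,
    1, fun x => by dsimp only; split_ifs <;> simp⟩
  set c := calc' (isHaar hu) hc hinj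
  refine ⟨fun i => c (ind i), fun i => ⟨ind i, rfl⟩, fun i => ?_, fun i j => ?_, ?_, fun i => ?_⟩
  · rw [← map_star]
    congr 1
    refine Subtype.ext (funext fun x => ?_)
    show star (if idx x = (i : ℕ) then (1 : ℂ) else 0) = _
    split_ifs with h <;> simp [ind, h]
  · rw [← map_mul]
    have : ind i * ind j = if i = j then ind i else 0 := by
      refine Subtype.ext (funext fun x => ?_)
      show (if idx x = (i : ℕ) then (1 : ℂ) else 0) * (if idx x = (j : ℕ) then (1 : ℂ) else 0) = _
      by_cases hij : i = j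
      · subst hij
        simp [ind]
      · by_cases hi : idx x = (i : ℕ)
        · have hj : (i : ℕ) ≠ (j : ℕ) := fun e => hij (Fin.ext e)
          simp [hij, hi, hj]
        · simp [hij, hi]
    rw [this]
    split_ifs <;> simp
  · rw [← map_sum]
    have : ∑ i, ind i = 1 := by
      refine Subtype.ext (funext fun x => ?_)
      simp only [AddSubmonoidClass.coe_finsetSum, Finset.sum_apply]
      show ∑ i : Fin K, (if idx x = (i : ℕ) then (1 : ℂ) else 0) = 1
      rw [Finset.sum_eq_single (⟨idx x, hlt x⟩ : Fin K)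
        (fun b _ hb => if_neg fun e => hb (Fin.ext e.symm))
        (fun h => absurd (Finset.mem_univ _) h), if_pos rfl]
    rw [this, map_one]
  · rw [tau_calc']
    set G : ℝ → ℂ := fun t => if ⌊(K : ℝ) * t⌋₊ = (i : ℕ) then 1 else 0
    show ∫ x, G (theta x) = 1 / K
    rw [integral_theta, intervalIntegral.integral_of_le zero_le_one]
    have hlo : (0 : ℝ) ≤ i / K := by positivity
    have hhi : ((i : ℕ) + 1 : ℝ) / K ≤ 1 := by
      rw [div_le_one hKR]; exact_mod_cast i.2
    have hset : (fun t => G t) =ᵐ[volume.restrict (Ioc (0 : ℝ) 1)]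
        (Ioo ((i : ℝ) / K) (((i : ℕ) + 1) / K)).indicator fun _ => (1 : ℂ) := by
      refine ae_restrict_of_ae_restrict_of_subset subset_rfl ?_
      filter_upwards [ae_restrict_mem measurableSet_Ioc,
        ae_restrict_of_ae ((volume : Measure ℝ).ae_ne ((i : ℝ) / K))] with t ht hne
      have hfl : ⌊(K : ℝ) * t⌋₊ = (i : ℕ) ↔ (i : ℝ) / K ≤ t ∧ t < ((i : ℕ) + 1) / K := by
        rw [Nat.floor_eq_iff (mul_nonneg hKR.le ht.1.le), div_le_iff₀ hKR, lt_div_iff₀ hKR,
          mul_comm (K : ℝ) t]
      by_cases h : t ∈ Ioo ((i : ℝ) / K) (((i : ℕ) + 1) / K)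
      · rw [indicator_of_mem h]
        simp only [G, if_pos (hfl.2 ⟨h.1.le, h.2⟩)]
      · rw [indicator_of_notMem h]
        simp only [G]
        rw [if_neg fun e => h ⟨lt_of_le_of_ne (hfl.1 e).1 (Ne.symm hne), (hfl.1 e).2⟩]
    rw [integral_congr_ae hset, setIntegral_indicator measurableSet_Ioo,
      inter_eq_right.2 (Ioo_subset_Ioc_self.trans (Ioc_subset_Ioc hlo hhi)), setIntegral_const,
      Real.volume_real_Ioo_of_le (by gcongr; linarith)]
    rw [Complex.real_smul, mul_one]
    push_cast
    ring

/-- The semicircular element of `u`. -/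
noncomputable def semiElt : A := calc' (isHaar hu) hc hinj (compSemi idSemi)

lemma semiElt_mem : semiElt hinj hc hu ∈ arcsAlg hinj hc hu := ⟨_, rfl⟩

lemma semiElt_star : star (semiElt hinj hc hu) = semiElt hinj hc hu := by
  rw [semiElt, ← map_star, ← map_star]
  congr 2
  ext y
  exact Complex.conj_ofReal _

lemma tau_semiElt_pow (n : ℕ) : S.τ (semiElt hinj hc hu ^ n) =
    ((2 / π * ∫ p in (0 : ℝ)..π, (2 * Real.cos p) ^ n * Real.sin p ^ 2 : ℝ) : ℂ) := by
  rw [semiElt, ← map_pow, ← map_pow, tau_calc']
  set G : ℝ → ℝ := fun t => (2 * Real.cos (quant t)) ^ n with hG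
  have e : ∀ x, ((compSemi (idSemi ^ n) : bdFun) : UnitAddCircle → ℂ) x = ((G (theta x) : ℝ) : ℂ) :=
    fun x => by simp [compSemi, idSemi, semiFun, hG]
  simp only [e]
  rw [integral_complex_ofReal, integral_theta]
  congr 1
  have h := intervalIntegral.integral_comp_mul_deriv (a := (0 : ℝ)) (b := π) (g := G)
    (fun p _ => hasDerivAt_dist' p) (by fun_prop)
    (((Real.continuous_cos.comp quant.continuous).const_mul 2).pow n)
  rw [dist'_zero, dist'_pi] at h
  rw [← h, ← intervalIntegral.integral_const_mul]
  refine intervalIntegral.integral_congr fun p _ => ?_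
  simp only [Function.comp_apply, hG, quant_dist']
  ring

lemma self_mem_closure :
    (u : A) ∈ (StarAlgebra.adjoin ℂ {semiElt hinj hc hu}).topologicalClosure := by
  set P := (calc' (isHaar hu) hc hinj).comp compSemi with hP
  set B := (StarAlgebra.adjoin ℂ {semiElt hinj hc hu}).topologicalClosure
  have hcont : Continuous P := AddMonoidHomClass.continuous_of_bound P 1 fun x => by
    simpa using NonUnitalStarAlgHom.norm_apply_le P x
  have hall : ∀ h, P h ∈ B := by
    have htop := ContinuousMap.starSubalgebra_topologicalClosure_eq_top_of_separatesPoints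
      (StarAlgebra.adjoin ℂ {idSemi}) (fun y z hyz => by
        refine ⟨idSemi, ⟨idSemi, StarAlgebra.self_mem_adjoin_singleton ℂ _, rfl⟩, ?_⟩
        exact fun e => hyz (Subtype.ext (Complex.ofReal_inj.1 e)))
    have hle : (StarAlgebra.adjoin ℂ {idSemi}).topologicalClosure ≤ B.comap P := by
      refine StarSubalgebra.topologicalClosure_minimal (StarAlgebra.adjoin_le ?_)
        (IsClosed.preimage hcont (StarSubalgebra.isClosed_topologicalClosure _))
      rintro _ rfl
      exact StarSubalgebra.le_topologicalClosure _ (StarAlgebra.self_mem_adjoin_singleton ℂ _)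
    intro h
    rw [htop] at hle
    exact hle StarSubalgebra.mem_top
  let back : C(Icc (-2 : ℝ) 2, ℂ) :=
    ⟨fun y => fourier 1 ((dist' (Real.arccos ((y : ℝ) / 2)) : ℝ) : UnitAddCircle), by
      have := continuous_dist'
      exact (fourier 1).continuous.comp ((AddCircle.continuous_mk' 1).comp
        (this.comp (Real.continuous_arccos.comp (continuous_subtype_val.div_const 2))))⟩
  have e : compSemi back = ⟨fourier 1, mem_bdFun_of_continuous _⟩ := by
    refine Subtype.ext (funext fun x => ?_)
    show fourier 1 ((dist' (Real.arccos (semiFun x / 2)) : ℝ) : UnitAddCircle) = fourier 1 x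
    have hq := quant_mem (Ico_subset_Icc_self (theta_mem x))
    rw [semiFun, mul_div_assoc, mul_comm, div_mul_cancel₀ _ two_ne_zero, Real.arccos_cos hq.1 hq.2,
      dist'_quant, coe_theta]
  have hu' := hall back
  rwa [hP, StarAlgHom.comp_apply, e, calc'_continuous, ev_fourier_one] at hu'

end VP086.Calc
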