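import Vale.Agent.P086.Model.Basic

/-!
P086, the model: the commutation theorem and the isomorphism given by a trace-preserving, dense
family of unitaries.
-/

open scoped InnerProductSpace lp ENNReal
open Filter Topology

namespace VP086.Model

attribute [local instance] Classical.decEq

set_option linter.unusedSectionVars false

variable {G G' : Type} [Group G] [Group G']

lemma pm_apply (g k : G) : (pm g : GroupL2 G) k = if k = g then 1 else 0 := by
  simp [pm, lp.single_apply, Pi.single_apply]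

lemma orthonormal_pm : Orthonormal ℂ (fun g : G => pm g) := by
  rw [orthonormal_iff_ite]
  intro g h
  rw [inner_pm, pm_apply]

lemma hasSum_pm (f : GroupL2 G) : HasSum (fun g => f g • pm g) f := by
  have h := lp.hasSum_single (p := (2 : ℝ≥0∞)) ENNReal.ofNat_ne_top f
  refine h.congr_fun fun g => ?_
  rw [pm, ← lp.single_smul, smul_eq_mul, mul_one]

lemma apply_eq_tsum (T : GroupL2 G →L[ℂ] GroupL2 G) (f : GroupL2 G) (k : G) :
    (T f) k = ∑' j, f j * (T (pm j)) k := by
  have h := (hasSum_pm f).map ((innerSL ℂ (pm k)).comp T)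
    ((innerSL ℂ (pm k)).comp T).continuous
  simpa [Function.comp_def, inner_smul_right, inner_pm] using h.tsum_eq.symm

/-- The commutation theorem. -/
theorem mem_groupVN_of_comm_rmul {x : GroupL2 G →L[ℂ] GroupL2 G}
    (hx : ∀ g, x * rmul g = rmul g * x) : x ∈ groupVN G := by
  rw [mem_groupVN_iff]
  intro T hT
  have cx : ∀ h k, x (pm h) k = x (pm 1) (k * h⁻¹) := fun h k => by
    have e := DFunLike.congr_fun (hx h) (pm 1)
    simp only [mul_apply_eq_comp, rmul_pm, one_mul] at e
    rw [e, rmul_apply]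
  have cT : ∀ h k, T (pm h) k = T (pm 1) (h⁻¹ * k) := fun h k => by
    have e := DFunLike.congr_fun (mem_commutant_iff.1 hT h) (pm 1)
    simp only [mul_apply_eq_comp, lmul_pm, mul_one] at e
    rw [← e, lmul_apply]
  refine (clm_ext fun h => lp.ext (funext fun k => ?_)).symm
  show (x (T (pm h))) k = (T (x (pm h))) k
  rw [apply_eq_tsum x, apply_eq_tsum T]
  rw [← ((Equiv.inv G).trans ((Equiv.mulLeft k).trans (Equiv.mulRight h))).tsum_eq
    (fun j => (x (pm h)) j * (T (pm j)) k)]
  refine tsum_congr fun j => ?_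
  show _ = (x (pm h)) (k * j⁻¹ * h) * (T (pm (k * j⁻¹ * h))) k
  rw [cT h j, cx j k, cx h, cT (k * j⁻¹ * h) k, mul_comm]
  congr 2 <;> group

/-- The isometry given by an orthonormal family of vectors. -/
lemma exists_isometry (v : G' → GroupL2 G) (hon : Orthonormal ℂ v)
    (hdense : (Submodule.span ℂ (Set.range v)).topologicalClosure = ⊤) :
    ∃ V : GroupL2 G' ≃ₗᵢ[ℂ] GroupL2 G, ∀ g, V (pm g) = v g := by
  set V₀ := hon.orthogonalFamily.linearIsometry with hV₀
  have hpm : ∀ g, V₀ (pm g) = v g := fun g => by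
    rw [hV₀, pm, OrthogonalFamily.linearIsometry_apply_single,
      LinearIsometry.toSpanSingleton_apply, one_smul]
  have hsurj : Function.Surjective V₀ := fun y => by
    have hsub : Submodule.span ℂ (Set.range v) ≤ V₀.toLinearMap.range := Submodule.span_le.2 (by
      rintro _ ⟨g, rfl⟩
      exact ⟨pm g, hpm g⟩)
    have hy : y ∈ (Submodule.span ℂ (Set.range v)).topologicalClosure := hdense ▸ Submodule.mem_top
    exact Submodule.topologicalClosure_minimal _ hsub V₀.isometry.isClosedEmbedding.isClosed_range hy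
  exact ⟨LinearIsometryEquiv.ofSurjective V₀ hsurj, hpm⟩

lemma orthonormal_vec (w : G' →* unitary (LA G))
    (hτ : ∀ g, g ≠ 1 → (std G).τ (w g : LA G) = 0) :
    Orthonormal ℂ fun g => vec G (w g : LA G) := by
  rw [orthonormal_iff_ite]
  intro g h
  show ⟪(std G).ι (w g : LA G), (std G).ι (w h : LA G)⟫_ℂ = _
  rw [(std G).inner_ι]
  show (std G).τ _ = _
  rw [← Unitary.coe_star, ← Submonoid.coe_mul, Unitary.star_eq_inv, ← map_inv, ← map_mul]
  split_ifs with e
  · subst e
    rw [inv_mul_cancel, map_one, Submonoid.coe_one, tau_eq]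
    exact pm_self 1
  · exact hτ _ fun h1 => e (inv_mul_eq_one.1 h1)

lemma apply_vec (a b : LA G) :
    (a : GroupL2 G →L[ℂ] GroupL2 G) (vec G b) = vec G (a * b) := rfl

variable (V : GroupL2 G' ≃ₗᵢ[ℂ] GroupL2 G) (w : G' →* unitary (LA G))

/-- The unitaries intertwine the left translations. -/
lemma conj_lmul (hV : ∀ g, V (pm g) = vec G (w g : LA G)) (g : G') (x : GroupL2 G') :
    V (lmul g x) = ((w g : LA G) : GroupL2 G →L[ℂ] GroupL2 G) (V x) := by
  have h : (V : GroupL2 G' →L[ℂ] GroupL2 G).comp (lmul g) =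
      ((w g : LA G) : GroupL2 G →L[ℂ] GroupL2 G).comp (V : GroupL2 G' →L[ℂ] GroupL2 G) :=
    clm_ext fun h => by
      show V (lmul g (pm h)) = ((w g : LA G) : GroupL2 G →L[ℂ] GroupL2 G) (V (pm h))
      rw [lmul_pm, hV, hV, apply_vec, map_mul, Submonoid.coe_mul]
  exact DFunLike.congr_fun h x

lemma conj_mem (hV : ∀ g, V (pm g) = vec G (w g : LA G))
    {T : GroupL2 G' →L[ℂ] GroupL2 G'} (hT : T ∈ groupVN G') :
    V.conjStarAlgEquiv T ∈ groupVN G := by
  refine mem_groupVN_of_comm_rmul fun g => ?_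
  have hS : V.conjStarAlgEquiv.symm (rmul g) ∈
      StarSubalgebra.centralizer ℂ (leftTranslations G') := mem_commutant_iff.2 fun h => by
    refine ContinuousLinearMap.ext fun x => V.injective ?_
    have e := DFunLike.congr_fun
      (mem_groupVN_iff.1 (w h : LA G).2 _ (rmul_mem_commutant g)) (V x)
    simp only [mul_apply_eq_comp] at e
    simp only [mul_apply_eq_comp, LinearIsometryEquiv.symm_conjStarAlgEquiv_apply_apply,
      LinearIsometryEquiv.apply_symm_apply, conj_lmul V w hV]
    exact e.symm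
  have h2 := congrArg V.conjStarAlgEquiv (mem_groupVN_iff.1 hT _ hS)
  rw [map_mul, map_mul, StarAlgEquiv.apply_symm_apply] at h2
  exact h2.symm

/-- Right translations go to right multiplications. -/
lemma conj_rmul (hV : ∀ g, V (pm g) = vec G (w g : LA G))
    (hdense : (Submodule.span ℂ
      (Set.range fun g => vec G (w g : LA G))).topologicalClosure = ⊤)
    (x : LA G) (h : G') :
    V (rmul h (V.symm (vec G x))) = vec G (x * (w h : LA G)) := by
  set S := Submodule.span ℂ (Set.range fun g => vec G (w g : LA G))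
  have hgen : ∀ g, V (rmul h (V.symm (vec G (w g : LA G)))) =
      vec G ((w g : LA G) * (w h : LA G)) := fun g => by
    rw [← hV g, LinearIsometryEquiv.symm_apply_apply, rmul_pm, hV, map_mul, Submonoid.coe_mul]
  have hS : ∀ y ∈ S, ∃ z : LA G, vec G z = y ∧
      V (rmul h (V.symm y)) = vec G (z * (w h : LA G)) := by
    intro y hy
    induction hy using Submodule.span_induction with
    | mem y hy =>
      obtain ⟨g, rfl⟩ := hy
      exact ⟨(w g : LA G), rfl, hgen g⟩
    | zero => exact ⟨0, map_zero _, by simp only [map_zero, zero_mul]⟩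
    | add a b _ _ iha ihb =>
      obtain ⟨za, ha1, ha2⟩ := iha
      obtain ⟨zb, hb1, hb2⟩ := ihb
      exact ⟨za + zb, by rw [map_add, ha1, hb1],
        by simp only [map_add, ha2, hb2, add_mul]⟩
    | smul c a _ iha =>
      obtain ⟨za, ha1, ha2⟩ := iha
      exact ⟨c • za, by rw [map_smul, ha1],
        by simp only [map_smul, ha2, smul_mul_assoc]⟩
  refine eq_of_forall_dist_le fun ε hε => ?_
  have hC0 : 0 ≤ ‖(w h : LA G)‖ := norm_nonneg _
  have hmem : vec G x ∈ S.topologicalClosure := hdense ▸ Submodule.mem_top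
  obtain ⟨y, hy, hyd⟩ := Metric.mem_closure_iff.1 hmem
    (ε / (‖rmul h‖ + ‖(w h : LA G)‖ + 1)) (by positivity)
  obtain ⟨z, rfl, hzy⟩ := hS y hy
  refine le_trans (dist_triangle _ (V (rmul h (V.symm (vec G z)))) _) ?_
  have h1 : dist (V (rmul h (V.symm (vec G x)))) (V (rmul h (V.symm (vec G z)))) ≤
      ‖rmul h‖ * dist (vec G x) (vec G z) := by
    rw [V.dist_map]
    refine ((rmul h).dist_le_opNorm _ _).trans ?_
    rw [V.symm.dist_map]
  have h2 : dist (V (rmul h (V.symm (vec G z)))) (vec G (x * (w h : LA G))) ≤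
      ‖(w h : LA G)‖ * dist (vec G x) (vec G z) := by
    rw [hzy, dist_comm, dist_eq_norm, ← map_sub, ← sub_mul, dist_eq_norm, ← map_sub]
    exact (std G).right_le _ _
  have h3 : dist (vec G x) (vec G z) * (‖rmul h‖ + ‖(w h : LA G)‖ + 1) ≤ ε :=
    (le_div_iff₀ (by positivity)).1 hyd.le
  nlinarith [dist_nonneg (x := vec G x) (y := vec G z)]

lemma symm_conj_mem (hV : ∀ g, V (pm g) = vec G (w g : LA G))
    (hdense : (Submodule.span ℂ
      (Set.range fun g => vec G (w g : LA G))).topologicalClosure = ⊤)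
    {X : GroupL2 G →L[ℂ] GroupL2 G} (hX : X ∈ groupVN G) :
    V.conjStarAlgEquiv.symm X ∈ groupVN G' := by
  refine mem_groupVN_of_comm_rmul fun h => ?_
  refine clm_ext fun g => ?_
  show V.symm (X (V (rmul h (pm g)))) = rmul h (V.symm (X (V (pm g))))
  have e : ∀ a : LA G, X (vec G a) = vec G ((⟨X, hX⟩ : LA G) * a) := fun a => rfl
  apply V.injective
  rw [LinearIsometryEquiv.apply_symm_apply, rmul_pm, hV, hV, e, e, conj_rmul V w hV hdense,
    mul_assoc, map_mul w, Submonoid.coe_mul]

omit V w in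
/-- The isomorphism given by a trace-preserving dense family of unitaries. -/
theorem nonempty_equiv (w : G' →* unitary (LA G))
    (hτ : ∀ g, g ≠ 1 → (std G).τ (w g : LA G) = 0)
    (hdense : (Submodule.span ℂ
      (Set.range fun g => vec G (w g : LA G))).topologicalClosure = ⊤) :
    Nonempty (groupVN G' ≃⋆ₐ[ℂ] groupVN G) := by
  obtain ⟨V, hV⟩ := exists_isometry _ (orthonormal_vec w hτ) hdense
  exact ⟨StarAlgEquiv.ofBijective
    ((V.conjStarAlgEquiv.toStarAlgHom.comp (groupVN G').subtype).codRestrict (groupVN G)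
      fun T => conj_mem V w hV T.2)
    ⟨fun a b hab => Subtype.ext (EquivLike.injective V.conjStarAlgEquiv (congrArg Subtype.val hab)),
      fun X => ⟨⟨V.conjStarAlgEquiv.symm X.1, symm_conj_mem V w hV hdense X.2⟩,
        Subtype.ext (StarAlgEquiv.apply_symm_apply V.conjStarAlgEquiv X.1)⟩⟩⟩

end VP086.Model
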