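import Vale.Agent.P086.Model.Freeness
import Vale.Agent.P086.Model.Moments
import Vale.Agent.P086.Model.Transfer
import Vale.Agent.P086.Model.Semicircle

/-!
P086: the model in `L(F₄)` and the reduction of the target to the abstract statement.
-/

namespace VP086.Model

open Calc

/-- The free group on four letters. -/
abbrev F4 : Type := FreeGroup (Fin 4)

/-- The four generators. -/
noncomputable def gen (i : Fin 4) : unitary (LA F4) := lamU (FreeGroup.of i)

theorem of_zpow_ne_one (i : Fin 4) {n : ℤ} (hn : n ≠ 0) : (FreeGroup.of i) ^ n ≠ 1 := by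
  intro h
  have := congrArg (FreeGroup.lift fun _ => Multiplicative.ofAdd (1 : ℤ)) h
  rw [map_zpow, FreeGroup.lift_apply_of, MonoidHom.map_one] at this
  exact hn (by simpa using congrArg Multiplicative.toAdd this)

theorem hu (i : Fin 4) (n : ℤ) (hn : n ≠ 0) :
    (std F4).τ ((gen i ^ n : unitary (LA F4)) : LA F4) = 0 := by
  rw [gen, ← map_zpow, tau_lamU, if_neg (of_zpow_ne_one i hn)]

theorem inj4 : Function.Injective (std F4).ι := vec_injective

theorem compl4 : BallComplete (std F4) := std_complete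

/-- The bounded functions of the first generator. -/
noncomputable def dAlg : StarSubalgebra ℂ (LA F4) := arcsAlg inj4 compl4 (hu 0)

/-- The semicircular function of the last generator. -/
noncomputable def qElt : LA F4 := semiElt inj4 compl4 (hu 3)

theorem arcsAlg_le_supp {i : Fin 4} {a : LA F4} (ha : a ∈ arcsAlg inj4 compl4 (hu i)) {S : Set (Fin 4)}
    (hi : i ∈ S) : a ∈ supp S := by
  rw [mem_supp, ← mul_one a]
  refine invariant inj4 compl4 (hu i) ha (isClosed_suppK S) fun n => ?_
  show vec F4 _ ∈ suppK S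
  rw [mul_one, gen, ← map_zpow, vec_lamU]
  exact pm_mem_suppK (zpow_mem (of_mem_lettersIn hi) n)

theorem map_mem_lettersIn {n : ℕ} (f : Fin n → Fin 4) {S : Set (Fin 4)} (hf : ∀ i, f i ∈ S)
    (h : FreeGroup (Fin n)) : FreeGroup.map f h ∈ lettersIn S := by
  induction h using FreeGroup.induction_on with
  | C1 => rw [map_one]; exact one_mem _
  | of i => exact of_mem_lettersIn (hf i)
  | inv_of i hi => rw [map_inv]; exact inv_mem hi
  | mul a b ha hb => rw [map_mul]; exact mul_mem ha hb

theorem wordHom_gen {n : ℕ} (f : Fin n → Fin 4) (h : FreeGroup (Fin n)) :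
    wordHom (gen ∘ f) h = lamU (FreeGroup.map f h) := by
  have : wordHom (gen ∘ f) = lamU.comp (FreeGroup.map f) := FreeGroup.ext_hom _ _ fun i => by
    simp [wordHom, gen]
  rw [this]
  rfl

theorem tau_word {n : ℕ} {f : Fin n → Fin 4} (hf : Function.Injective f)
    (h : FreeGroup (Fin n)) :
    (std F4).τ (wordHom (gen ∘ f) h : LA F4) = if h = 1 then 1 else 0 := by
  rw [wordHom_gen, tau_lamU]
  refine if_congr ?_ rfl rfl
  exact map_eq_one_iff _ (FreeGroup.map_injective hf)

theorem gen12 : ![gen 1, gen 2] = gen ∘ ![1, 2] := by ext i; fin_cases i <;> rfl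

theorem gen012 : ![gen 0, gen 1, gen 2] = gen ∘ ![0, 1, 2] := by ext i; fin_cases i <;> rfl

theorem words_le_supp {S : Set (Fin 4)} (h1 : (1 : Fin 4) ∈ S) (h2 : (2 : Fin 4) ∈ S) :
    (Set.range fun h => (wordHom ![gen 1, gen 2] h : LA F4)) ⊆ supp S := by
  rintro _ ⟨h, rfl⟩
  show _ ∈ supp S
  simp only [gen12, wordHom_gen]
  exact lamU_mem_supp (map_mem_lettersIn _ (fun i => by fin_cases i <;> assumption) h)

/-- The system in `L(F₄)`. -/
noncomputable def system : System (LA F4) (GroupL2 F4) where
  toStd := std F4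
  u0 := gen 0
  u1 := gen 1
  u2 := gen 2
  D := dAlg
  q := qElt
  q_star := semiElt_star inj4 compl4 (hu 3)
  faithful x hx := vec_injective (hx.trans (map_zero (vec F4)).symm)
  u0_mem := mem_arcsAlg_self inj4 compl4 (hu 0)
  free_E := by
    refine isFree_supp (S := {1, 2}) (T := {0, 3}) ?_ ?_ ?_
    · simp
    · exact Algebra.adjoin_le (words_le_supp (by simp) (by simp))
    · refine Algebra.adjoin_le (Set.union_subset (fun a ha => arcsAlg_le_supp ha (by simp)) ?_)
      rintro a rfl
      exact arcsAlg_le_supp (semiElt_mem inj4 compl4 (hu 3)) (by simp)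
  tau_E h := by
    rw [gen12]
    exact tau_word (by decide) h
  free_q := by
    refine isFree_supp (S := {3}) (T := {0, 1, 2}) ?_ ?_ ?_
    · simp
    · refine Algebra.adjoin_le ?_
      rintro a rfl
      exact arcsAlg_le_supp (semiElt_mem inj4 compl4 (hu 3)) (by simp)
    · exact Algebra.adjoin_le (Set.union_subset (fun a ha => arcsAlg_le_supp ha (by simp))
        (words_le_supp (by simp) (by simp)))
  tau_q := by
    have h := tau_semiElt_pow inj4 compl4 (hu 3) 1
    rw [pow_one] at h
    exact h.trans (by exact_mod_cast scMoment_one)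
  semicircle m := by
    show (std F4).τ _ = ∑ i ∈ _, (std F4).τ _ * (std F4).τ _
    simp only [qElt, tau_semiElt_pow]
    exact_mod_cast scMoment_rec m
  arcs := arcs inj4 compl4 (hu 0)
  complete := std_complete

theorem span_pm_dense {G : Type} [Group G] {K : Submodule ℂ (GroupL2 G)}
    (hK : IsClosed (K : Set (GroupL2 G))) (h : ∀ g, pm g ∈ K) : K = ⊤ := by
  classical
  refine Submodule.eq_top_iff'.2 fun v => ?_
  refine hK.mem_of_tendsto (lp.hasSum_single (E := fun _ : G => ℂ) ENNReal.ofNat_ne_top v)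
    (Filter.Eventually.of_forall fun s => sum_mem fun g _ => ?_)
  have e : lp.single 2 g (v g) = v g • pm g := by rw [pm, ← lp.single_smul, smul_eq_mul, mul_one]
  rw [e]
  exact K.smul_mem _ (h g)

/-- The free group factors of ranks three and four are isomorphic, given the abstract statement. -/
theorem iso_of_limit (hL : LimitSpec) :
    Nonempty (groupVN (FreeGroup (Fin 3)) ≃⋆ₐ[ℂ] groupVN (FreeGroup (Fin 4))) := by
  obtain ⟨u, hlaw, hK⟩ := hL (LA F4) (GroupL2 F4) system
  let w : FreeGroup (Fin 3) →* unitary (LA F4) := wordHom ![gen 0, u, gen 2]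
  have hτ : ∀ g, g ≠ 1 → (std F4).τ (w g : LA F4) = 0 := fun g hg => by
    refine (hlaw g).trans ?_
    show (std F4).τ (wordHom ![gen 0, gen 1, gen 2] g : LA F4) = 0
    rw [gen012, tau_word (by decide), if_neg hg]
  refine nonempty_equiv w hτ (span_pm_dense (Submodule.isClosed_topologicalClosure _) fun g => ?_)
  set K := (Submodule.span ℂ (Set.range fun g => vec F4 (w g : LA F4))).topologicalClosure with hKdef
  have hcl : IsClosed (K : Set (GroupL2 F4)) := Submodule.isClosed_topologicalClosure _
  have hmem : ∀ g, vec F4 (w g : LA F4) ∈ K := fun g =>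
    Submodule.le_topologicalClosure _ (Submodule.subset_span ⟨g, rfl⟩)
  have hone : (std F4).ι 1 ∈ K := by
    have h1 := hmem 1
    rwa [map_one] at h1
  have hinv : ∀ a : LA F4, (∀ h, vec F4 (a * (w h : LA F4)) ∈ K) →
      ∀ x, vec F4 x ∈ K → vec F4 (a * x) ∈ K := by
    intro a ha x hx
    have hle : K ≤ K.comap ((a : GroupL2 F4 →L[ℂ] GroupL2 F4) : GroupL2 F4 →ₗ[ℂ] GroupL2 F4) :=
      Submodule.topologicalClosure_minimal _ (Submodule.span_le.2 (by rintro _ ⟨h, rfl⟩; exact ha h))
        (hcl.preimage (a : GroupL2 F4 →L[ℂ] GroupL2 F4).continuous)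
    exact hle hx
  have hw : ∀ c : FreeGroup (Fin 3), ∀ h, vec F4 ((w c : LA F4) * (w h : LA F4)) ∈ K := by
    intro c h
    have := hmem (c * h)
    rwa [map_mul] at this
  have hset : ∀ a ∈ (dAlg : Set (LA F4)) ∪
      {(u : LA F4), star (u : LA F4), (gen 2 : LA F4), star (gen 2 : LA F4)},
      ∀ x, vec F4 x ∈ K → vec F4 (a * x) ∈ K := by
    intro a ha x hx
    refine hinv a ?_ x hx
    rcases ha with ha | ha
    · intro h
      refine invariant inj4 compl4 (hu 0) ha hcl fun n => ?_
      have := hw (FreeGroup.of 0 ^ n) h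
      rwa [map_zpow, show w (FreeGroup.of 0) = gen 0 by simp [w, wordHom]] at this
    · have h1 : ∀ c, a = w c → ∀ h, vec F4 (a * (w h : LA F4)) ∈ K := fun c e => e ▸ hw c
      rcases ha with rfl | rfl | rfl | rfl
      · exact h1 (.of 1) (by simp [w, wordHom])
      · exact h1 (.of 1)⁻¹ (by simp [w, wordHom, ← Unitary.star_eq_inv])
      · exact h1 (.of 2) (by simp [w, wordHom])
      · exact h1 (.of 2)⁻¹ (by simp [w, wordHom, ← Unitary.star_eq_inv])
  rw [← vec_lamU g]
  refine hK K hcl hone hset _ ?_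
  set B := (StarAlgebra.adjoin ℂ
    ((dAlg : Set (LA F4)) ∪ {(gen 1 : LA F4), (gen 2 : LA F4), qElt})).topologicalClosure with hB
  have hsub : (dAlg : Set (LA F4)) ∪ {(gen 1 : LA F4), (gen 2 : LA F4), qElt} ⊆ B :=
    (StarAlgebra.subset_adjoin ℂ _).trans (StarSubalgebra.le_topologicalClosure _)
  show (lamU g : LA F4) ∈ B
  induction g using FreeGroup.induction_on with
  | C1 => rw [map_one]; exact one_mem B
  | of i =>
    show (gen i : LA F4) ∈ B
    fin_cases i
    · exact hsub (Or.inl (mem_arcsAlg_self inj4 compl4 (hu 0)))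
    · exact hsub (Or.inr (by simp))
    · exact hsub (Or.inr (by simp))
    · refine StarSubalgebra.topologicalClosure_mono ?_ (self_mem_closure inj4 compl4 (hu 3))
      exact StarAlgebra.adjoin_le fun a ha =>
        StarAlgebra.subset_adjoin ℂ _ (Or.inr (by rw [Set.mem_singleton_iff.1 ha]; simp [qElt]))
  | inv_of i hi =>
    rw [map_inv]
    exact star_mem hi
  | mul a b ha hb =>
    rw [map_mul]
    exact mul_mem ha hb

/-- The target follows from the abstract statement. -/
theorem target_of_limit (hL : LimitSpec) : Target :=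
  ⟨3, 4, by norm_num, by norm_num, by norm_num, iso_of_limit hL⟩

end VP086.Model
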