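import Vale.Agent.P086.System

/-!
P086: bounded measurable functions of a Haar unitary, built from the continuous functional
calculus and the completeness of the unit ball in the two-norm.
-/

open scoped InnerProductSpace Topology
open MeasureTheory Filter ComplexConjugate

namespace VP086.Calc

variable {A : Type} [CStarAlgebra A] {H : Type} [NormedAddCommGroup H] [InnerProductSpace ℂ H]

/-! ### The trace norm -/

section Std

variable (S : Std A H)

lemma norm_ι_le (a : A) : ‖S.ι a‖ ≤ ‖a‖ := by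
  simpa [S.norm_one] using S.left_le a 1

/-- `ι` as a continuous linear map. -/
noncomputable def ιL : A →L[ℂ] H :=
  S.ι.mkContinuous 1 fun a => by simpa using norm_ι_le S a

lemma tau_eq_inner (x y : A) : S.τ (star x * y) = ⟪S.ι x, S.ι y⟫_ℂ := (S.inner_ι x y).symm

lemma norm_ι_star (x : A) : ‖S.ι (star x)‖ = ‖S.ι x‖ := by
  have h : ⟪S.ι (star x), S.ι (star x)⟫_ℂ = ⟪S.ι x, S.ι x⟫_ℂ := by
    rw [S.inner_ι, S.inner_ι x x, star_star, S.tau_comm]
  rw [inner_self_eq_norm_sq_to_K, inner_self_eq_norm_sq_to_K] at h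
  exact (sq_eq_sq₀ (norm_nonneg _) (norm_nonneg _)).1 (by exact_mod_cast h)

lemma tendsto_mul_right {α : Type*} {l : Filter α} {a : α → A} {b : A}
    (h : Tendsto (fun n => S.ι (a n)) l (𝓝 (S.ι b))) (x : A) :
    Tendsto (fun n => S.ι (a n * x)) l (𝓝 (S.ι (b * x))) := by
  rw [tendsto_iff_norm_sub_tendsto_zero] at h ⊢
  refine squeeze_zero (fun _ => norm_nonneg _) (fun n => ?_)
    (by simpa using h.const_mul ‖x‖)
  rw [← map_sub, ← map_sub, ← sub_mul]
  exact S.right_le x _

end Std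

/-! ### Functions on the circle -/

/-- Bounded measurable functions on the circle. -/
def bdFun : StarSubalgebra ℂ (UnitAddCircle → ℂ) where
  carrier := {f | Measurable f ∧ ∃ C, ∀ x, ‖f x‖ ≤ C}
  mul_mem' := by
    rintro f g ⟨hf, C, hC⟩ ⟨hg, D, hD⟩
    exact ⟨hf.mul hg, C * D, fun x => (norm_mul_le _ _).trans
      (mul_le_mul (hC x) (hD x) (norm_nonneg _) ((norm_nonneg _).trans (hC x)))⟩
  add_mem' := by
    rintro f g ⟨hf, C, hC⟩ ⟨hg, D, hD⟩
    exact ⟨hf.add hg, C + D, fun x => (norm_add_le _ _).trans (add_le_add (hC x) (hD x))⟩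
  algebraMap_mem' c := ⟨measurable_const, ‖c‖, fun x => le_of_eq rfl⟩
  star_mem' := by
    rintro f ⟨hf, C, hC⟩
    exact ⟨continuous_star.measurable.comp hf, C, fun x => (norm_star (f x)).le.trans (hC x)⟩

lemma mem_bdFun_of_continuous (g : C(UnitAddCircle, ℂ)) : (g : UnitAddCircle → ℂ) ∈ bdFun :=
  ⟨g.continuous.measurable, ‖g‖, g.norm_coe_le_norm⟩

lemma integrable_of_mem {f : UnitAddCircle → ℂ} (hf : f ∈ bdFun) : Integrable f := by
  obtain ⟨hm, C, hC⟩ := hf
  exact Integrable.of_bound hm.aestronglyMeasurable C (ae_of_all _ hC)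

lemma integrable_sq_of_mem {f : UnitAddCircle → ℂ} (hf : f ∈ bdFun) :
    Integrable fun x => ‖f x‖ ^ 2 := by
  obtain ⟨hm, C, hC⟩ := hf
  exact Integrable.of_bound (hm.norm.pow_const 2).aestronglyMeasurable (C ^ 2) (ae_of_all _ fun x => by
    rw [Real.norm_of_nonneg (by positivity)]; exact pow_le_pow_left₀ (norm_nonneg _) (hC x) 2)

/-- The squared two-norm. -/
noncomputable def nsq (f : UnitAddCircle → ℂ) : ℝ := ∫ x, ‖f x‖ ^ 2

lemma nsq_nonneg (f : UnitAddCircle → ℂ) : 0 ≤ nsq f := integral_nonneg fun _ => sq_nonneg _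

lemma nsq_add_le {f g : UnitAddCircle → ℂ} (hf : f ∈ bdFun) (hg : g ∈ bdFun) :
    nsq (f + g) ≤ 2 * nsq f + 2 * nsq g := by
  rw [nsq, nsq, nsq, ← integral_const_mul, ← integral_const_mul,
    ← integral_add ((integrable_sq_of_mem hf).const_mul 2) ((integrable_sq_of_mem hg).const_mul 2)]
  refine integral_mono (integrable_sq_of_mem (add_mem hf hg))
    (((integrable_sq_of_mem hf).const_mul 2).add ((integrable_sq_of_mem hg).const_mul 2)) fun x => ?_
  show ‖f x + g x‖ ^ 2 ≤ 2 * ‖f x‖ ^ 2 + 2 * ‖g x‖ ^ 2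
  nlinarith [norm_add_le (f x) (g x), norm_nonneg (f x + g x), sq_nonneg (‖f x‖ - ‖g x‖)]

lemma nsq_mul_le {f g : UnitAddCircle → ℂ} (hg : g ∈ bdFun) {C : ℝ} (hf : f ∈ bdFun)
    (hC : ∀ x, ‖f x‖ ≤ C) : nsq (f * g) ≤ C ^ 2 * nsq g := by
  rw [nsq, nsq, ← integral_const_mul]
  refine integral_mono (integrable_sq_of_mem (mul_mem hf hg)) ((integrable_sq_of_mem hg).const_mul _)
    fun x => ?_
  show ‖f x * g x‖ ^ 2 ≤ C ^ 2 * ‖g x‖ ^ 2
  rw [norm_mul, mul_pow]
  gcongr
  exact hC x

/-- Bounded approximation in the two-norm by continuous functions. -/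
lemma exists_approx {f : UnitAddCircle → ℂ} (hf : f ∈ bdFun) {C : ℝ} (hC : ∀ x, ‖f x‖ ≤ C)
    {ε : ℝ} (hε : 0 < ε) :
    ∃ g : C(UnitAddCircle, ℂ), ‖g‖ ≤ 2 * |C| ∧ nsq (f - g) ≤ ε := by
  have hmem : MemLp f (ENNReal.ofReal 2) volume :=
    MemLp.of_bound hf.1.aestronglyMeasurable C (ae_of_all _ hC)
  obtain ⟨g, -, hg, hgc, hgm⟩ :=
    hmem.exists_hasCompactSupport_integral_rpow_sub_le two_pos hε
  set cl : ℝ → ℝ := fun b => max (-|C|) (min |C| b) with hcl
  have hcl_abs : ∀ b, |cl b| ≤ |C| := fun b =>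
    abs_le.2 ⟨le_max_left _ _, max_le (neg_le_self (abs_nonneg C)) (min_le_left _ _)⟩
  have hcl_near : ∀ a b, |a| ≤ |C| → (a - cl b) ^ 2 ≤ (a - b) ^ 2 := by
    intro a b ha
    obtain ⟨h1, h2⟩ := abs_le.1 ha
    apply sq_le_sq.2
    rw [abs_le]
    constructor <;>
      rcases le_total b (-|C|) with h | h <;> rcases le_total |C| b with h' | h' <;>
      · simp only [hcl, min_eq_left, min_eq_right, h', h, max_eq_left, max_eq_right,
          neg_le_self (abs_nonneg C)]
        cases abs_cases (a - b) <;> linarith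
  refine ⟨⟨fun x => (cl (g x).re : ℂ) + (cl (g x).im : ℂ) * Complex.I, by fun_prop⟩, ?_, ?_⟩
  · refine (ContinuousMap.norm_le _ (by positivity)).2 fun x => ?_
    refine (norm_add_le _ _).trans ?_
    simp only [Complex.norm_real, norm_mul, Complex.norm_I, mul_one, Real.norm_eq_abs]
    linarith [hcl_abs (g x).re, hcl_abs (g x).im]
  · refine le_trans ?_ hg
    simp only [nsq, Real.rpow_two]
    refine integral_mono_of_nonneg (ae_of_all _ fun x => sq_nonneg _) ?_ (ae_of_all _ fun x => ?_)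
    · have h2 := (hmem.sub hgm).integrable_norm_rpow (by simp) (by simp)
      simpa using h2
    · have hfC : ‖f x‖ ≤ |C| := (hC x).trans (le_abs_self C)
      have e1 : (f - fun y => (cl (g y).re : ℂ) + (cl (g y).im : ℂ) * Complex.I) x =
          f x - ((cl (g x).re : ℂ) + (cl (g x).im : ℂ) * Complex.I) := rfl
      show ‖(f - fun y => (cl (g y).re : ℂ) + (cl (g y).im : ℂ) * Complex.I) x‖ ^ 2 ≤ ‖f x - g x‖ ^ 2
      rw [e1, Complex.sq_norm, Complex.sq_norm, Complex.normSq_apply, Complex.normSq_apply]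
      have h3 := hcl_near (f x).re (g x).re ((Complex.abs_re_le_norm _).trans hfC)
      have h4 := hcl_near (f x).im (g x).im ((Complex.abs_im_le_norm _).trans hfC)
      simp
      nlinarith

lemma integral_fourier (n : ℤ) :
    ∫ x : UnitAddCircle, fourier n x = if n = 0 then 1 else 0 := by
  split_ifs with h
  · subst h
    haveI : IsProbabilityMeasure (volume : Measure UnitAddCircle) := ⟨UnitAddCircle.measure_univ⟩
    simp [fourier_zero]
  · have e := integral_add_right_eq_self (μ := (volume : Measure UnitAddCircle))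
      (fun x : UnitAddCircle => (fourier n x : ℂ)) (((1 : ℝ) / 2 / n : ℝ) : UnitAddCircle)
    simp only [fourier_add_half_inv_index h zero_lt_one, integral_neg] at e
    linear_combination -e / 2

/-! ### The calculus -/

section Calculus

variable (S : Std A H) (u : unitary A)

/-- The angle on the spectrum of a unitary. -/
noncomputable def angle : C(spectrum ℂ (u : A), UnitAddCircle) :=
  ⟨fun z => (AddCircle.homeomorphCircle one_ne_zero).symm
    ⟨(z : ℂ), mem_sphere_zero_iff_norm.2 (by simpa using Unitary.spectrum_subset_circle u z.2)⟩,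
    (Homeomorph.continuous _).comp (continuous_subtype_val.subtype_mk _)⟩

/-- Continuous functions of `u`. -/
noncomputable def ev : C(UnitAddCircle, ℂ) →⋆ₐ[ℂ] A :=
  (cfcHom (R := ℂ) (a := (u : A)) (inferInstance : IsStarNormal (u : A))).comp (ContinuousMap.compStarAlgHom' ℂ ℂ (angle u))

lemma ev_fourier_one : ev u (fourier 1) = (u : A) := by
  show cfcHom (R := ℂ) (a := (u : A)) (inferInstance : IsStarNormal (u : A)) (ContinuousMap.comp (fourier 1) (angle u)) = _
  convert cfcHom_id (R := ℂ) (a := (u : A)) (inferInstance : IsStarNormal (u : A)) using 2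
  ext z
  show fourier 1 (angle u z) = (z : ℂ)
  rw [fourier_one, ← AddCircle.homeomorphCircle_apply one_ne_zero]
  exact congrArg Subtype.val (Homeomorph.apply_symm_apply (AddCircle.homeomorphCircle one_ne_zero) _)

lemma ev_fourier (n : ℤ) : ev u (fourier n) = ((u ^ n : unitary A) : A) := by
  have hnat : ∀ n : ℕ, ev u (fourier (n : ℤ)) = ((u ^ n : unitary A) : A) := by
    intro n
    induction n with
    | zero =>
      have : (fourier 0 : C(UnitAddCircle, ℂ)) = 1 := by ext x; simp [fourier_zero]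
      simp [this]
    | succ n ih =>
      have : (fourier ((n + 1 : ℕ) : ℤ) : C(UnitAddCircle, ℂ)) = fourier (n : ℤ) * fourier 1 := by
        ext x; push_cast; exact fourier_add
      rw [this, map_mul, ih, ev_fourier_one, pow_succ]
      rfl
  obtain ⟨m, rfl | rfl⟩ := n.eq_nat_or_neg
  · rw [hnat, zpow_natCast]
  · have : (fourier (-(m : ℤ)) : C(UnitAddCircle, ℂ)) = star (fourier (m : ℤ)) := by
      ext x; exact fourier_neg
    rw [this, map_star, hnat, zpow_neg, zpow_natCast, ← Unitary.star_eq_inv, Unitary.coe_star]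

variable {S u}

/-- The trace of powers of a Haar unitary. -/
def IsHaar (S : Std A H) (u : unitary A) : Prop :=
  ∀ n : ℤ, S.τ ((u ^ n : unitary A) : A) = if n = 0 then 1 else 0

lemma tau_ev (hu : IsHaar S u) (f : C(UnitAddCircle, ℂ)) : S.τ (ev u f) = ∫ x, f x := by
  let L₁ : C(UnitAddCircle, ℂ) →L[ℂ] ℂ := LinearMap.mkContinuous
    { toFun := fun f => S.τ (ev u f)
      map_add' := fun f g => by simp [Std.τ, inner_add_right]
      map_smul' := fun c f => by simp [Std.τ, inner_smul_right] }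
    1 fun f => by
      rw [one_mul]
      refine (norm_inner_le_norm _ _).trans ?_
      rw [S.norm_one, one_mul]
      exact (norm_ι_le S _).trans (NonUnitalStarAlgHom.norm_apply_le (ev u) f)
  let L₂ : C(UnitAddCircle, ℂ) →L[ℂ] ℂ := LinearMap.mkContinuous
    { toFun := fun f => ∫ x, f x
      map_add' := fun f g => integral_add (integrable_of_mem (mem_bdFun_of_continuous f))
        (integrable_of_mem (mem_bdFun_of_continuous g))
      map_smul' := fun c f => integral_smul c _ }
    1 fun f => by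
      rw [one_mul]
      haveI : IsProbabilityMeasure (volume : Measure UnitAddCircle) := ⟨UnitAddCircle.measure_univ⟩
      exact (norm_integral_le_of_norm_le_const (ae_of_all _ f.norm_coe_le_norm)).trans (by simp)
  have h : L₁ = L₂ := by
    refine ContinuousLinearMap.ext_on (Submodule.dense_iff_topologicalClosure_eq_top.2
      span_fourier_closure_eq_top) ?_
    rintro _ ⟨n, rfl⟩
    show S.τ (ev u (fourier n)) = ∫ x, fourier n x
    rw [ev_fourier, hu, integral_fourier]
  exact congrArg (fun L : C(UnitAddCircle, ℂ) →L[ℂ] ℂ => L f) h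

lemma norm_ι_ev_sq (hu : IsHaar S u) (f : C(UnitAddCircle, ℂ)) :
    ‖S.ι (ev u f)‖ ^ 2 = nsq f := by
  apply Complex.ofReal_injective
  have h := inner_self_eq_norm_sq_to_K (𝕜 := ℂ) (S.ι (ev u f))
  simp only [Complex.ofReal_pow]
  rw [← RCLike.ofReal_eq_complex_ofReal, ← h, S.inner_ι, ← map_star, ← map_mul]
  show S.τ (ev u (star f * f)) = _
  rw [tau_ev hu, nsq, RCLike.ofReal_eq_complex_ofReal, ← integral_complex_ofReal]
  refine integral_congr_ae (ae_of_all _ fun x => ?_)
  show star (f x) * f x = _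
  rw [← starRingEnd_apply, Complex.conj_mul']
  exact (Complex.ofReal_pow _ _).symm

/-- `a` represents the bounded measurable function `f`. -/
def Rep (S : Std A H) (u : unitary A) (f : UnitAddCircle → ℂ) (a : A) : Prop :=
  ∃ g : ℕ → C(UnitAddCircle, ℂ), (∃ C, ∀ n, ‖g n‖ ≤ C) ∧
    Tendsto (fun n => nsq (f - g n)) atTop (𝓝 0) ∧
    Tendsto (fun n => S.ι (ev u (g n))) atTop (𝓝 (S.ι a))

lemma Rep.of_continuous (g : C(UnitAddCircle, ℂ)) : Rep S u g (ev u g) :=
  ⟨fun _ => g, ⟨‖g‖, fun _ => le_rfl⟩, by simp [nsq], tendsto_const_nhds⟩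

lemma Rep.unique (hu : IsHaar S u) (hinj : Function.Injective S.ι) {f : UnitAddCircle → ℂ}
    (hf : f ∈ bdFun) {a b : A} (ha : Rep S u f a) (hb : Rep S u f b) : a = b := by
  obtain ⟨g, -, hg, hga⟩ := ha
  obtain ⟨k, -, hk, hkb⟩ := hb
  refine hinj (sub_eq_zero.1 (tendsto_nhds_unique (hga.sub hkb) ?_))
  rw [tendsto_zero_iff_norm_tendsto_zero]
  have h2 : Tendsto (fun n => 2 * nsq (f - k n) + 2 * nsq (f - g n)) atTop (𝓝 0) := by
    simpa using (hk.const_mul 2).add (hg.const_mul 2)
  have h3 : Tendsto (fun n => ‖S.ι (ev u (g n)) - S.ι (ev u (k n))‖ ^ 2) atTop (𝓝 0) := by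
    refine squeeze_zero (fun _ => sq_nonneg _) (fun n => ?_) h2
    rw [← map_sub, ← map_sub, norm_ι_ev_sq hu]
    have e : ((g n - k n : C(UnitAddCircle, ℂ)) : UnitAddCircle → ℂ) = (f - k n) + -(f - g n) := by
      simp
    rw [e]
    refine (nsq_add_le (sub_mem hf (mem_bdFun_of_continuous _))
      (neg_mem (sub_mem hf (mem_bdFun_of_continuous _)))).trans (le_of_eq ?_)
    simp [nsq, norm_sub_rev]
  have := h3.sqrt
  simpa [Real.sqrt_sq (norm_nonneg _)] using this

lemma Rep.add {f k : UnitAddCircle → ℂ} (hf : f ∈ bdFun) (hk : k ∈ bdFun) {a b : A}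
    (ha : Rep S u f a) (hb : Rep S u k b) : Rep S u (f + k) (a + b) := by
  obtain ⟨g, ⟨C, hC⟩, hg, hga⟩ := ha
  obtain ⟨g', ⟨C', hC'⟩, hg', hgb⟩ := hb
  refine ⟨fun n => g n + g' n, ⟨C + C', fun n => (norm_add_le _ _).trans (add_le_add (hC n) (hC' n))⟩,
    squeeze_zero (fun _ => nsq_nonneg _) (fun n => ?_) (by simpa using (hg.const_mul 2).add (hg'.const_mul 2)),
    by simpa only [map_add] using hga.add hgb⟩
  rw [show f + k - ((g n + g' n : C(UnitAddCircle, ℂ)) : UnitAddCircle → ℂ) =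
    (f - g n) + (k - g' n) by simp; abel]
  exact nsq_add_le (sub_mem hf (mem_bdFun_of_continuous _)) (sub_mem hk (mem_bdFun_of_continuous _))

lemma Rep.star {f : UnitAddCircle → ℂ} {a : A} (ha : Rep S u f a) :
    Rep S u (Star.star f) (Star.star a) := by
  obtain ⟨g, ⟨C, hC⟩, hg, hga⟩ := ha
  refine ⟨fun n => Star.star (g n), ⟨C, fun n => (norm_star _).le.trans (hC n)⟩, ?_, ?_⟩
  · refine hg.congr fun n => ?_
    simp only [nsq]
    refine integral_congr_ae (ae_of_all _ fun x => ?_)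
    show ‖f x - g n x‖ ^ 2 = ‖Star.star (f x) - Star.star (g n x)‖ ^ 2
    rw [← star_sub, norm_star]
  · rw [tendsto_iff_norm_sub_tendsto_zero] at hga ⊢
    refine hga.congr fun n => ?_
    simp only [map_star, ← map_sub, ← star_sub, norm_ι_star]

lemma Rep.mul {f k : UnitAddCircle → ℂ} (hf : f ∈ bdFun) (hk : k ∈ bdFun) {a b : A}
    (ha : Rep S u f a) (hb : Rep S u k b) : Rep S u (f * k) (a * b) := by
  obtain ⟨g, ⟨C, hC⟩, hg, hga⟩ := ha
  obtain ⟨g', ⟨C', hC'⟩, hg', hgb⟩ := hb
  obtain ⟨D, hD⟩ := hk.2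
  refine ⟨fun n => g n * g' n, ⟨C * C', fun n => (norm_mul_le _ _).trans
    (mul_le_mul (hC n) (hC' n) (norm_nonneg _) ((norm_nonneg _).trans (hC n)))⟩, ?_, ?_⟩
  · refine squeeze_zero (fun _ => nsq_nonneg _) (fun n => ?_)
      (g := fun n => 2 * (D ^ 2 * nsq (f - g n)) + 2 * (C ^ 2 * nsq (k - g' n)))
      (by simpa using (((hg.const_mul (D ^ 2)).const_mul 2).add ((hg'.const_mul (C ^ 2)).const_mul 2)))
    rw [show f * k - ((g n * g' n : C(UnitAddCircle, ℂ)) : UnitAddCircle → ℂ) =
      k * (f - g n) + (g n : UnitAddCircle → ℂ) * (k - g' n) by simp; ring]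
    have hfg := sub_mem hf (mem_bdFun_of_continuous (g n))
    have hkg := sub_mem hk (mem_bdFun_of_continuous (g' n))
    refine (nsq_add_le (mul_mem hk hfg) (mul_mem (mem_bdFun_of_continuous _) hkg)).trans ?_
    gcongr
    · exact nsq_mul_le hfg hk hD
    · exact nsq_mul_le hkg (mem_bdFun_of_continuous _) fun x =>
        ((g n).norm_coe_le_norm x).trans (hC n)
  · rw [tendsto_iff_norm_sub_tendsto_zero] at hga hgb ⊢
    refine squeeze_zero (fun _ => norm_nonneg _) (fun n => ?_)
      (g := fun n => C * ‖S.ι (ev u (g' n)) - S.ι b‖ + ‖b‖ * ‖S.ι (ev u (g n)) - S.ι a‖)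
      (by simpa using (hgb.const_mul C).add (hga.const_mul ‖b‖))
    rw [map_mul, ← map_sub, ← map_sub, ← map_sub,
      show ev u (g n) * ev u (g' n) - a * b =
        ev u (g n) * (ev u (g' n) - b) + (ev u (g n) - a) * b by noncomm_ring, map_add]
    refine (norm_add_le _ _).trans (add_le_add ((S.left_le _ _).trans ?_) (S.right_le _ _))
    exact mul_le_mul_of_nonneg_right ((NonUnitalStarAlgHom.norm_apply_le (ev u) _).trans (hC n))
      (norm_nonneg _)

/-- The completeness of the unit ball in the two-norm. -/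
def BallComplete (S : Std A H) : Prop :=
  ∀ x : ℕ → A, (∀ m, ‖x m‖ ≤ 1) → CauchySeq (fun m => S.ι (x m)) →
    ∃ a : A, ‖a‖ ≤ 1 ∧ Tendsto (fun m => S.ι (x m)) atTop (𝓝 (S.ι a))

lemma exists_rep (hu : IsHaar S u) (hc : BallComplete S) {f : UnitAddCircle → ℂ} (hf : f ∈ bdFun) :
    ∃ a, Rep S u f a := by
  obtain ⟨C, hC⟩ := hf.2
  choose g hg₁ hg₂ using fun n : ℕ => exists_approx hf hC (ε := 1 / (n + 1)) (by positivity)
  have hlim : Tendsto (fun n => nsq (f - g n)) atTop (𝓝 0) :=
    squeeze_zero (fun _ => nsq_nonneg _) hg₂ tendsto_one_div_add_atTop_nhds_zero_nat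
  set r : ℝ := 2 * |C| + 1 with hr
  have hr0 : 0 < r := by positivity
  have hball : ∀ n, ‖((r⁻¹ : ℝ) : ℂ) • ev u (g n)‖ ≤ 1 := fun n => by
    rw [norm_smul, Complex.norm_real, Real.norm_of_nonneg (by positivity), inv_mul_le_iff₀ hr0]
    have := (NonUnitalStarAlgHom.norm_apply_le (ev u) (g n)).trans (hg₁ n)
    linarith
  have hcau : CauchySeq fun n => S.ι (ev u (g n)) := by
    rw [Metric.cauchySeq_iff]
    intro ε hε
    obtain ⟨N, hN⟩ := exists_nat_gt (4 / ε ^ 2)
    refine ⟨N, fun m hm n hn => ?_⟩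
    rw [dist_eq_norm, ← map_sub, ← map_sub, ← abs_norm, ← abs_of_pos hε, ← sq_lt_sq,
      norm_ι_ev_sq hu]
    have e : ((g m - g n : C(UnitAddCircle, ℂ)) : UnitAddCircle → ℂ) = (f - g n) + -(f - g m) := by
      simp
    rw [e]
    refine (nsq_add_le (sub_mem hf (mem_bdFun_of_continuous _))
      (neg_mem (sub_mem hf (mem_bdFun_of_continuous _)))).trans_lt ?_
    have hb : ∀ j, N ≤ j → (1 : ℝ) / (j + 1) < ε ^ 2 / 4 := fun j hj => by
      rw [div_lt_div_iff₀ (by positivity) (by norm_num)]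
      rw [div_lt_iff₀ (by positivity)] at hN
      have : (N : ℝ) ≤ j := by exact_mod_cast hj
      nlinarith
    have hneg : nsq (-(f - g m)) = nsq (f - g m) := by simp [nsq, norm_sub_rev]
    linarith [hg₂ m, hg₂ n, hb m hm, hb n hn]
  have hcau' : CauchySeq fun n => S.ι (((r⁻¹ : ℝ) : ℂ) • ev u (g n)) := by
    simp only [map_smul]
    exact ((uniformContinuous_const_smul _).comp_cauchySeq hcau)
  obtain ⟨a, -, ha⟩ := hc _ hball hcau'
  refine ⟨((r : ℝ) : ℂ) • a, g, ⟨_, hg₁⟩, hlim, ?_⟩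
  have hC : (r : ℂ) ≠ 0 := Complex.ofReal_ne_zero.2 hr0.ne'
  have := ha.const_smul ((r : ℝ) : ℂ)
  simpa [smul_smul, mul_inv_cancel₀ hC] using this

variable (hu : IsHaar S u) (hc : BallComplete S) (hinj : Function.Injective S.ι)

/-- Bounded measurable functions of `u`. -/
noncomputable def calcFun (f : bdFun) : A := (exists_rep hu hc f.2).choose

lemma rep_calcFun (f : bdFun) : Rep S u f (calcFun hu hc f) := (exists_rep hu hc f.2).choose_spec

include hinj in
lemma calcFun_eq (f : bdFun) {a : A} (h : Rep S u f a) : calcFun hu hc f = a :=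
  (rep_calcFun hu hc f).unique hu hinj f.2 h

/-- The calculus of bounded measurable functions of a Haar unitary. -/
noncomputable def calc' : bdFun →⋆ₐ[ℂ] A where
  toFun := calcFun hu hc
  map_one' := calcFun_eq hu hc hinj 1 (by simpa using Rep.of_continuous (S := S) (u := u) 1)
  map_mul' f k := calcFun_eq hu hc hinj _ ((rep_calcFun hu hc f).mul f.2 k.2 (rep_calcFun hu hc k))
  map_zero' := calcFun_eq hu hc hinj 0 (by simpa using Rep.of_continuous (S := S) (u := u) 0)
  map_add' f k := calcFun_eq hu hc hinj _ ((rep_calcFun hu hc f).add f.2 k.2 (rep_calcFun hu hc k))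
  commutes' c := calcFun_eq hu hc hinj _ (by
    have h := Rep.of_continuous (S := S) (u := u) (algebraMap ℂ C(UnitAddCircle, ℂ) c)
    rw [AlgHomClass.commutes] at h
    exact h)
  map_star' f := calcFun_eq hu hc hinj _ (rep_calcFun hu hc f).star

lemma calc'_continuous (g : C(UnitAddCircle, ℂ)) :
    calc' hu hc hinj ⟨g, mem_bdFun_of_continuous g⟩ = ev u g :=
  calcFun_eq hu hc hinj _ (Rep.of_continuous g)

lemma tau_calc' (f : bdFun) : S.τ (calc' hu hc hinj f) = ∫ x, (f : UnitAddCircle → ℂ) x := by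
  obtain ⟨g, -, hg, hga⟩ := rep_calcFun hu hc f
  refine tendsto_nhds_unique (tendsto_const_nhds.inner hga) ?_
  show Tendsto (fun n => S.τ (ev u (g n))) atTop _
  simp only [tau_ev hu]
  rw [Metric.tendsto_atTop]
  intro ε hε
  obtain ⟨N, hN⟩ := eventually_atTop.1 (hg.eventually (eventually_lt_nhds (show 0 < ε ^ 2 by positivity)))
  refine ⟨N, fun n hn => ?_⟩
  rw [dist_eq_norm, ← integral_sub (integrable_of_mem (mem_bdFun_of_continuous _))
    (integrable_of_mem f.2)]
  have hd : (f : UnitAddCircle → ℂ) - g n ∈ bdFun := sub_mem f.2 (mem_bdFun_of_continuous _)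
  have hpt : ∀ x, ‖g n x - (f : UnitAddCircle → ℂ) x‖ ≤
      ε / 2 + (1 / (2 * ε)) * ‖((f : UnitAddCircle → ℂ) - g n) x‖ ^ 2 := fun x => by
    rw [norm_sub_rev]
    show ‖((f : UnitAddCircle → ℂ) - g n) x‖ ≤ _
    set y := ‖((f : UnitAddCircle → ℂ) - g n) x‖
    have e : ε / 2 + 1 / (2 * ε) * y ^ 2 - y = (ε - y) ^ 2 / (2 * ε) := by field_simp; ring
    have : 0 ≤ (ε - y) ^ 2 / (2 * ε) := by positivity
    linarith
  refine (norm_integral_le_of_norm_le
    ((integrable_const (ε / 2)).add ((integrable_sq_of_mem hd).const_mul (1 / (2 * ε))))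
    (ae_of_all _ hpt)).trans_lt ?_
  haveI : IsProbabilityMeasure (volume : Measure UnitAddCircle) := ⟨UnitAddCircle.measure_univ⟩
  simp only [Pi.add_apply]
  rw [integral_add (integrable_const _) ((integrable_sq_of_mem hd).const_mul _), integral_const_mul,
    integral_const, probReal_univ, one_smul]
  have h2 := hN n hn
  have h3 : 1 / (2 * ε) * nsq ((f : UnitAddCircle → ℂ) - g n) < ε / 2 := by
    rw [div_mul_eq_mul_div, one_mul, div_lt_iff₀ (by positivity)]
    nlinarith
  simp only [nsq] at h3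
  linarith

/-- The algebra of bounded measurable functions of `u`. -/
noncomputable def funAlg : StarSubalgebra ℂ A := (calc' hu hc hinj).range

lemma u_mem_funAlg : (u : A) ∈ funAlg hu hc hinj :=
  ⟨⟨fourier 1, mem_bdFun_of_continuous _⟩, (calc'_continuous hu hc hinj _).trans (ev_fourier_one u)⟩

/-- Functions of `u` leave invariant what the powers of `u` leave invariant. -/
theorem mem_of_powers {a : A} (ha : a ∈ funAlg hu hc hinj) {K : Submodule ℂ H}
    (hK : IsClosed (K : Set H)) {x : A} (hx : ∀ n : ℤ, S.ι (((u ^ n : unitary A) : A) * x) ∈ K) :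
    S.ι (a * x) ∈ K := by
  obtain ⟨f, rfl⟩ := ha
  obtain ⟨g, -, -, hga⟩ := rep_calcFun hu hc f
  refine hK.mem_of_tendsto (tendsto_mul_right S hga x) (Eventually.of_forall fun n => ?_)
  let L : C(UnitAddCircle, ℂ) →L[ℂ] H := LinearMap.mkContinuous
    { toFun := fun f => S.ι (ev u f * x)
      map_add' := fun f g => by simp [add_mul]
      map_smul' := fun c f => by simp [smul_mul_assoc] }
    ‖x‖ fun f => by
      refine (S.right_le x _).trans (mul_le_mul_of_nonneg_left ?_ (norm_nonneg _))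
      exact (norm_ι_le S _).trans (NonUnitalStarAlgHom.norm_apply_le (ev u) f)
  have hle : Submodule.span ℂ (Set.range (@fourier (1 : ℝ))) ≤ K.comap L.toLinearMap :=
    Submodule.span_le.2 (by
      rintro _ ⟨m, rfl⟩
      show S.ι (ev u (fourier m) * x) ∈ K
      rw [ev_fourier]
      exact hx m)
  have := Submodule.topologicalClosure_minimal _ hle (hK.preimage L.continuous)
  rw [span_fourier_closure_eq_top] at this
  exact this (Submodule.mem_top (x := g n))

end Calculus

end VP086.Calc
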