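import Vale.Agent.P086.System
import Vale.Agent.P086.GroupVN

/-!
P086, the model: elements of the group von Neumann algebra as functions on the group, the trace,
bounded strong limits, and the standard form.
-/

open scoped InnerProductSpace ComplexConjugate

namespace VP086.Model

set_option linter.unusedSectionVars false

/-- Reindexing along a bijection. -/
noncomputable def reindex {ι κ : Type} (e : ι ≃ κ) :
    lp (fun _ : ι => ℂ) 2 ≃ₗᵢ[ℂ] lp (fun _ : κ => ℂ) 2 where
  toFun v := ⟨fun k => v (e.symm k), memℓp_gen ((e.symm.summable_iff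
    (f := fun i => ‖v i‖ ^ (2 : ENNReal).toReal)).2 (lp.hasSum_norm (by norm_num) v).summable)⟩
  invFun w := ⟨fun i => w (e i), memℓp_gen ((e.summable_iff
    (f := fun k => ‖w k‖ ^ (2 : ENNReal).toReal)).2 (lp.hasSum_norm (by norm_num) w).summable)⟩
  map_add' v w := rfl
  map_smul' c v := rfl
  left_inv v := lp.ext (funext fun i => congrArg v (e.symm_apply_apply i))
  right_inv w := lp.ext (funext fun k => congrArg w (e.apply_symm_apply k))
  norm_map' v := by
    have hv := (e.symm.hasSum_iff (f := fun i => ‖v i‖ ^ (2 : ENNReal).toReal)).2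
      (lp.hasSum_norm (E := fun _ : ι => ℂ) (p := 2) (by norm_num) v)
    exact (Real.rpow_left_inj (norm_nonneg _) (norm_nonneg _) (by norm_num)).1
      ((lp.hasSum_norm (E := fun _ : κ => ℂ) (p := 2) (by norm_num) _).unique hv)

@[simp] theorem reindex_apply {ι κ : Type} (e : ι ≃ κ) (v : lp (fun _ : ι => ℂ) 2) (k : κ) :
    reindex e v k = v (e.symm k) := rfl

variable {G : Type} [Group G]

/-- A point mass. -/
noncomputable def pm (g : G) : GroupL2 G := by classical exact lp.single 2 g 1

theorem pm_self (g : G) : pm g g = 1 := by classical simp [pm, lp.single_apply]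

theorem pm_ne {g h : G} (hne : h ≠ g) : pm g h = 0 := by classical simp [pm, lp.single_apply, hne]

theorem inner_pm (g : G) (v : GroupL2 G) : ⟪pm g, v⟫_ℂ = v g := by
  classical
  rw [pm, lp.inner_single_left]
  simp

theorem norm_pm (g : G) : ‖pm g‖ = 1 := by
  classical
  rw [pm, lp.norm_single (by norm_num)]
  simp

/-- The left translation. -/
noncomputable def lmul (g : G) : GroupL2 G →L[ℂ] GroupL2 G :=
  (reindex (Equiv.mulLeft g)).toLinearIsometry.toContinuousLinearMap

/-- The right translation. -/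
noncomputable def rmul (g : G) : GroupL2 G →L[ℂ] GroupL2 G :=
  (reindex (Equiv.mulRight g)).toLinearIsometry.toContinuousLinearMap

theorem lmul_apply (g : G) (v : GroupL2 G) (k : G) : lmul g v k = v (g⁻¹ * k) := rfl

theorem rmul_apply (g : G) (v : GroupL2 G) (k : G) : rmul g v k = v (k * g⁻¹) := rfl

theorem lmul_pm (g h : G) : lmul g (pm h) = pm (g * h) := by
  refine lp.ext (funext fun k => ?_)
  rw [lmul_apply]
  by_cases hk : k = g * h
  · subst hk; simp [pm_self]
  · rw [pm_ne hk, pm_ne]; exact fun e => hk (by rw [← e]; group)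

theorem rmul_pm (g h : G) : rmul g (pm h) = pm (h * g) := by
  refine lp.ext (funext fun k => ?_)
  rw [rmul_apply]
  by_cases hk : k = h * g
  · subst hk; simp [pm_self]
  · rw [pm_ne hk, pm_ne]; exact fun e => hk (by rw [← e]; group)

theorem clm_ext {K : Type} [NormedAddCommGroup K] [NormedSpace ℂ K]
    {S T : GroupL2 G →L[ℂ] K} (h : ∀ g, S (pm g) = T (pm g)) : S = T := by
  classical
  refine ContinuousLinearMap.ext fun v => ?_
  have hs := lp.hasSum_single (E := fun _ : G => ℂ) (by norm_num : (2 : ENNReal) ≠ ⊤) v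
  refine (hs.map S S.continuous).unique ((hs.map T T.continuous).congr_fun fun g => ?_)
  have e : lp.single 2 g (v g) = v g • pm g := by
    rw [pm, ← lp.single_smul, smul_eq_mul, mul_one]
  simp only [Function.comp_apply]
  rw [e, map_smul, map_smul, h]

theorem lmul_one : lmul (1 : G) = 1 := clm_ext fun g => by rw [lmul_pm, one_mul]; rfl

theorem lmul_mul (g h : G) : lmul (g * h) = lmul g * lmul h := clm_ext fun k => by
  show _ = lmul g (lmul h (pm k))
  rw [lmul_pm, lmul_pm, lmul_pm, mul_assoc]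

theorem star_lmul (g : G) : star (lmul g) = lmul g⁻¹ := by
  refine clm_ext fun k => lp.ext (funext fun j => ?_)
  rw [← inner_pm, ContinuousLinearMap.star_eq_adjoint, ContinuousLinearMap.adjoint_inner_right,
    lmul_pm, inner_pm, lmul_pm]
  by_cases h : j = g⁻¹ * k
  · subst h; rw [mul_inv_cancel_left, pm_self, pm_self]
  · rw [pm_ne h, pm_ne]; exact fun e => h (by rw [← e]; group)

theorem lmul_rmul (g h : G) : lmul g * rmul h = rmul h * lmul g :=
  ContinuousLinearMap.ext fun v => lp.ext (funext fun k => by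
    show lmul g (rmul h v) k = rmul h (lmul g v) k
    rw [lmul_apply, rmul_apply, rmul_apply, lmul_apply, mul_assoc])

theorem mem_leftTranslations {T : GroupL2 G →L[ℂ] GroupL2 G} :
    T ∈ leftTranslations G ↔ ∃ g, T = lmul g := by
  classical
  constructor
  · rintro ⟨g, hg⟩
    exact ⟨g, clm_ext fun h => (hg h).trans (lmul_pm g h).symm⟩
  · rintro ⟨g, rfl⟩
    exact ⟨g, fun h => lmul_pm g h⟩

theorem lmul_mem_leftTranslations (g : G) : lmul g ∈ leftTranslations G :=
  mem_leftTranslations.2 ⟨g, rfl⟩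

/-- `T` commutes with all left translations. -/
theorem mem_commutant_iff {T : GroupL2 G →L[ℂ] GroupL2 G} :
    T ∈ StarSubalgebra.centralizer ℂ (leftTranslations G) ↔ ∀ g, lmul g * T = T * lmul g := by
  rw [StarSubalgebra.mem_centralizer_iff]
  refine ⟨fun h g => (h _ (lmul_mem_leftTranslations g)).1, fun h S hS => ?_⟩
  obtain ⟨g, rfl⟩ := mem_leftTranslations.1 hS
  exact ⟨h g, by rw [star_lmul]; exact h g⁻¹⟩

theorem rmul_mem_commutant (h : G) :
    rmul h ∈ StarSubalgebra.centralizer ℂ (leftTranslations G) :=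
  mem_commutant_iff.2 fun g => lmul_rmul g h

theorem mem_groupVN_iff {x : GroupL2 G →L[ℂ] GroupL2 G} :
    x ∈ groupVN G ↔
      ∀ T ∈ StarSubalgebra.centralizer ℂ (leftTranslations G), T * x = x * T := by
  rw [groupVN, StarSubalgebra.mem_centralizer_iff]
  exact ⟨fun h T hT => (h T hT).1, fun h T hT => ⟨h T hT, h _ (star_mem hT)⟩⟩

theorem lmul_mem (g : G) : lmul g ∈ groupVN G :=
  mem_groupVN_iff.2 fun _ hT => (mem_commutant_iff.1 hT g).symm

instance isClosed_groupVN : IsClosed (groupVN G : Set (GroupL2 G →L[ℂ] GroupL2 G)) := by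
  rw [groupVN, StarSubalgebra.coe_centralizer]
  exact Set.isClosed_centralizer _

/-- The coefficient function. -/
noncomputable def cf (x : GroupL2 G →L[ℂ] GroupL2 G) (g : G) : ℂ := x (pm 1) g

theorem apply_pm {x : GroupL2 G →L[ℂ] GroupL2 G} (hx : x ∈ groupVN G) (h : G) :
    x (pm h) = rmul h (x (pm 1)) := by
  have e := mem_groupVN_iff.1 hx _ (rmul_mem_commutant h)
  have := DFunLike.congr_fun e (pm 1)
  simp only [mul_apply_eq_comp, rmul_pm, one_mul] at this
  exact this.symm

theorem apply_pm_apply {x : GroupL2 G →L[ℂ] GroupL2 G} (hx : x ∈ groupVN G) (h k : G) :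
    x (pm h) k = cf x (k * h⁻¹) := by
  rw [apply_pm hx, rmul_apply]
  rfl

theorem eq_of_vec {x y : GroupL2 G →L[ℂ] GroupL2 G} (hx : x ∈ groupVN G) (hy : y ∈ groupVN G)
    (h : x (pm 1) = y (pm 1)) : x = y :=
  clm_ext fun g => by rw [apply_pm hx, apply_pm hy, h]

theorem cf_star {x : GroupL2 G →L[ℂ] GroupL2 G} (hx : x ∈ groupVN G) (g : G) :
    cf (star x) g = conj (cf x g⁻¹) := by
  rw [cf, ← inner_pm, ContinuousLinearMap.star_eq_adjoint, ContinuousLinearMap.adjoint_inner_right,
    ← inner_conj_symm, inner_pm, apply_pm_apply hx, one_mul]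

/-- The product as a convolution. -/
theorem hasSum_cf_mul {x y : GroupL2 G →L[ℂ] GroupL2 G} (hx : x ∈ groupVN G) (g : G) :
    HasSum (fun c => cf x (g * c⁻¹) * cf y c) (cf (x * y) g) := by
  have h := lp.hasSum_inner (G := fun _ : G => ℂ) (𝕜 := ℂ) (star x (pm g)) (y (pm 1))
  have e : ⟪star x (pm g), y (pm 1)⟫_ℂ = cf (x * y) g := by
    rw [ContinuousLinearMap.star_eq_adjoint, ContinuousLinearMap.adjoint_inner_left, inner_pm]
    rfl
  rw [e] at h
  refine h.congr_fun fun c => ?_
  rw [apply_pm_apply (star_mem hx), cf_star hx, RCLike.inner_apply, RingHomCompTriple.comp_apply,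
    RingHom.id_apply, mul_inv_rev, inv_inv]
  simp only [cf]
  ring

theorem trace_comm {x y : GroupL2 G →L[ℂ] GroupL2 G} (hx : x ∈ groupVN G) (hy : y ∈ groupVN G) :
    cf (x * y) 1 = cf (y * x) 1 := by
  have h1 := hasSum_cf_mul (y := y) hx 1
  have h2 := hasSum_cf_mul (y := x) hy 1
  refine h1.unique ?_
  refine ((Equiv.inv G).hasSum_iff.2 h2).congr_fun fun c => ?_
  simp [mul_comm]

/-- Strong limits of bounded sequences: if the vectors converge, so do the operators. -/
theorem exists_limit {x : ℕ → GroupL2 G →L[ℂ] GroupL2 G} {C : ℝ} (hx : ∀ m, x m ∈ groupVN G)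
    (hC : ∀ m, ‖x m‖ ≤ C) (hcau : CauchySeq fun m => x m (pm 1)) :
    ∃ a ∈ groupVN G, ‖a‖ ≤ C ∧ (∀ v, Filter.Tendsto (fun m => x m v) Filter.atTop (nhds (a v))) ∧
      ∀ T, (∀ m, T * x m = x m * T) → T * a = a * T := by
  classical
  obtain ⟨ξ, hξ⟩ := cauchySeq_tendsto_of_complete hcau
  have hC0 : 0 ≤ C := (norm_nonneg _).trans (hC 0)
  have hlim : ∀ v, ∃ w, Filter.Tendsto (fun m => x m v) Filter.atTop (nhds w) := by
    intro v
    refine cauchySeq_tendsto_of_complete ?_
    rw [Metric.cauchySeq_iff]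
    intro ε hε
    have hs := lp.hasSum_single (E := fun _ : G => ℂ) (by norm_num : (2 : ENNReal) ≠ ⊤) v
    obtain ⟨s, hs'⟩ : ∃ s : Finset G, ‖∑ g ∈ s, lp.single 2 g (v g) - v‖ < ε / (3 * (C + 1)) := by
      obtain ⟨s, hs'⟩ := Filter.eventually_atTop.1
        (Metric.tendsto_nhds.1 hs (ε / (3 * (C + 1))) (by positivity))
      exact ⟨s, by rw [← dist_eq_norm]; exact hs' s le_rfl⟩
    set w := ∑ g ∈ s, lp.single 2 g (v g) with hw
    have hwl : CauchySeq fun m => x m w := by
      have hl : Filter.Tendsto (fun m => x m w) Filter.atTop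
          (nhds (∑ g ∈ s, v g • rmul g ξ)) := by
        simp only [hw, map_sum]
        refine tendsto_finsetSum _ fun g _ => ?_
        have e : ∀ m, x m (lp.single 2 g (v g)) = v g • rmul g (x m (pm 1)) := fun m => by
          rw [← apply_pm (hx m) g, ← map_smul, pm, ← lp.single_smul, smul_eq_mul, mul_one]
        simp only [e]
        exact (((rmul g).continuous.tendsto _).comp hξ).const_smul _
      exact hl.cauchySeq
    obtain ⟨N, hN⟩ := Metric.cauchySeq_iff.1 hwl (ε / 3) (by positivity)
    refine ⟨N, fun m hm n hn => ?_⟩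
    have h1 : ∀ k, dist (x k v) (x k w) ≤ ε / 3 := fun k => by
      rw [dist_eq_norm, ← map_sub, norm_sub_rev] at *
      refine ((x k).le_opNorm _).trans ?_
      calc ‖x k‖ * ‖v - w‖ ≤ (C + 1) * (ε / (3 * (C + 1))) := by
            refine mul_le_mul ((hC k).trans (by linarith)) ?_ (norm_nonneg _) (by linarith)
            exact hs'.le
        _ = ε / 3 := by field_simp
    calc dist (x m v) (x n v) ≤ dist (x m v) (x m w) + dist (x m w) (x n w) + dist (x n w) (x n v) :=
          dist_triangle4 _ _ _ _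
      _ < ε := by
          have := hN m hm n hn
          have := h1 m
          have := h1 n
          rw [dist_comm (x n w)]
          linarith
  choose f hf using hlim
  let lin : GroupL2 G →ₗ[ℂ] GroupL2 G :=
    { toFun := f
      map_add' := fun v w => tendsto_nhds_unique (hf (v + w))
        (((hf v).add (hf w)).congr fun m => ((x m).map_add v w).symm)
      map_smul' := fun c v => tendsto_nhds_unique (hf (c • v))
        (((hf v).const_smul c).congr fun m => ((x m).map_smul c v).symm) }
  let a := lin.mkContinuous C fun v => le_of_tendsto (hf v).norm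
    (Filter.Eventually.of_forall fun m => ((x m).le_opNorm v).trans
      (mul_le_mul_of_nonneg_right (hC m) (norm_nonneg _)))
  have hcomm : ∀ T, (∀ m, T * x m = x m * T) → T * a = a * T := fun T hT => by
    refine ContinuousLinearMap.ext fun v => tendsto_nhds_unique
      ((T.continuous.tendsto _).comp (hf v)) ((hf (T v)).congr fun m => ?_)
    exact (DFunLike.congr_fun (hT m) v).symm
  refine ⟨a, ?_, LinearMap.mkContinuous_norm_le _ hC0 _, hf, hcomm⟩
  exact mem_groupVN_iff.2 fun T hT => hcomm T fun m => mem_groupVN_iff.1 (hx m) T hT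

variable (G) in
/-- The algebra of the model. -/
abbrev LA : Type := groupVN G

variable (G) in
/-- Evaluation at the trace vector. -/
noncomputable def vec : LA G →ₗ[ℂ] GroupL2 G where
  toFun x := (x : GroupL2 G →L[ℂ] GroupL2 G) (pm 1)
  map_add' _ _ := rfl
  map_smul' _ _ := rfl

theorem vec_apply (x : LA G) : vec G x = (x : GroupL2 G →L[ℂ] GroupL2 G) (pm 1) := rfl

theorem norm_vec_star (x : LA G) : ‖vec G (star x)‖ = ‖vec G x‖ := by
  set a := (x : GroupL2 G →L[ℂ] GroupL2 G) with ha
  have h : ⟪vec G (star x), vec G (star x)⟫_ℂ = ⟪vec G x, vec G x⟫_ℂ := by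
    show ⟪star a (pm 1), star a (pm 1)⟫_ℂ = ⟪a (pm 1), a (pm 1)⟫_ℂ
    rw [ContinuousLinearMap.star_eq_adjoint, ContinuousLinearMap.adjoint_inner_left,
      ← ContinuousLinearMap.adjoint_inner_right a, inner_pm, inner_pm,
      ← ContinuousLinearMap.star_eq_adjoint]
    exact trace_comm x.2 (star_mem x.2)
  rw [inner_self_eq_norm_sq_to_K, inner_self_eq_norm_sq_to_K] at h
  exact (pow_left_inj₀ (norm_nonneg _) (norm_nonneg _) two_ne_zero).1 (by exact_mod_cast h)

theorem vec_mul_le_left (a x : LA G) : ‖vec G (a * x)‖ ≤ ‖a‖ * ‖vec G x‖ :=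
  (a : GroupL2 G →L[ℂ] GroupL2 G).le_opNorm _

variable (G) in
/-- The standard form. -/
noncomputable def std : Std (LA G) (GroupL2 G) where
  ι := vec G
  norm_one := norm_pm 1
  inner_ι x y := by
    show _ = ⟪pm 1, star (x : GroupL2 G →L[ℂ] GroupL2 G) _⟫_ℂ
    rw [ContinuousLinearMap.star_eq_adjoint, ContinuousLinearMap.adjoint_inner_right]
    rfl
  left_le := vec_mul_le_left
  right_le a x := by
    rw [← norm_vec_star (x * a), star_mul, ← norm_vec_star x, ← norm_star a]
    exact vec_mul_le_left _ _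
  tau_comm x y := by
    show ⟪pm 1, ((x : GroupL2 G →L[ℂ] GroupL2 G) * y) (pm 1)⟫_ℂ =
      ⟪pm 1, ((y : GroupL2 G →L[ℂ] GroupL2 G) * x) (pm 1)⟫_ℂ
    rw [inner_pm, inner_pm]
    exact trace_comm x.2 y.2

theorem tau_eq (x : LA G) : (std G).τ x = cf (x : GroupL2 G →L[ℂ] GroupL2 G) 1 :=
  inner_pm 1 _

/-- The unitary of a group element. -/
noncomputable def lamU : G →* unitary (LA G) where
  toFun g := ⟨⟨lmul g, lmul_mem g⟩, by
    rw [Unitary.mem_iff]
    constructor <;> refine Subtype.ext ?_
    · show star (lmul g) * lmul g = 1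
      rw [star_lmul, ← lmul_mul, inv_mul_cancel, lmul_one]
    · show lmul g * star (lmul g) = 1
      rw [star_lmul, ← lmul_mul, mul_inv_cancel, lmul_one]⟩
  map_one' := Subtype.ext (Subtype.ext lmul_one)
  map_mul' g h := Subtype.ext (Subtype.ext (lmul_mul g h))

theorem lamU_val (g : G) : ((lamU g : LA G) : GroupL2 G →L[ℂ] GroupL2 G) = lmul g := rfl

theorem vec_lamU (g : G) : vec G (lamU g : LA G) = pm g := by
  show lmul g (pm 1) = pm g
  rw [lmul_pm, mul_one]

theorem tau_lamU [DecidableEq G] (g : G) :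
    (std G).τ (lamU g : LA G) = if g = 1 then 1 else 0 := by
  rw [tau_eq, cf, lamU_val, lmul_pm, mul_one]
  split
  · next h => rw [h, pm_self]
  · next h => exact pm_ne (Ne.symm h)

theorem vec_injective : Function.Injective (vec G) := fun x y h =>
  Subtype.ext (eq_of_vec x.2 y.2 h)

theorem std_complete (x : ℕ → LA G) (hx : ∀ m, ‖x m‖ ≤ 1)
    (hc : CauchySeq fun m => vec G (x m)) :
    ∃ a : LA G, ‖a‖ ≤ 1 ∧
      Filter.Tendsto (fun m => vec G (x m)) Filter.atTop (nhds (vec G a)) := by
  obtain ⟨a, ha, hn, hl, -⟩ := exists_limit (C := 1) (fun m => (x m).2) hx hc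
  exact ⟨⟨a, ha⟩, hn, hl _⟩

end VP086.Model
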