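import Mathlib

/-!
P086: subgroups of a free group given by sets of letters.
-/

namespace VP086.Model

open FreeGroup

variable {α : Type} [DecidableEq α]

omit [DecidableEq α] in
theorem mem_of_red {S : Set α} {L₁ L₂ : List (α × Bool)} (h : Red L₁ L₂)
    (h₁ : ∀ p ∈ L₁, p.1 ∈ S) : ∀ p ∈ L₂, p.1 ∈ S := fun p hp =>
  h₁ p (h.sublist.subset hp)

/-- The elements whose reduced word uses only letters in `S`. -/
def lettersIn (S : Set α) : Subgroup (FreeGroup α) where
  carrier := {x | ∀ p ∈ x.toWord, p.1 ∈ S}
  one_mem' := by simp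
  mul_mem' {x y} hx hy := by
    intro p hp
    rw [toWord_mul] at hp
    exact mem_of_red (reduce.red (L := x.toWord ++ y.toWord))
      (fun q hq => (List.mem_append.1 hq).elim (hx q) (hy q)) p hp
  inv_mem' {x} hx := by
    intro p hp
    rw [toWord_inv] at hp
    simp only [FreeGroup.invRev, List.mem_reverse, List.mem_map] at hp
    obtain ⟨q, hq, rfl⟩ := hp
    exact hx q hq

theorem mem_lettersIn {S : Set α} {x : FreeGroup α} :
    x ∈ lettersIn S ↔ ∀ p ∈ x.toWord, p.1 ∈ S := Iff.rfl

theorem of_mem_lettersIn {S : Set α} {a : α} (ha : a ∈ S) : FreeGroup.of a ∈ lettersIn S := by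
  simp [mem_lettersIn, ha]

theorem lettersIn_mono {S T : Set α} (h : S ⊆ T) : lettersIn S ≤ lettersIn T := fun _ hx p hp =>
  h (hx p hp)

/-- The first letter of the reduced word lies in `S`. -/
def StartsIn (S : Set α) (x : FreeGroup α) : Prop :=
  ∃ p rest, x.toWord = p :: rest ∧ p.1 ∈ S

theorem StartsIn.ne_one {S : Set α} {x : FreeGroup α} (h : StartsIn S x) : x ≠ 1 := by
  obtain ⟨p, rest, h, -⟩ := h
  rintro rfl
  simp at h

theorem startsIn_of_mem {S : Set α} {x : FreeGroup α} (h : x ∈ lettersIn S) (hne : x ≠ 1) :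
    StartsIn S x := by
  obtain ⟨p, rest, hp⟩ := List.exists_cons_of_ne_nil (mt toWord_eq_nil_iff.1 hne)
  exact ⟨p, rest, hp, h p (by simp [hp])⟩

/-- A nontrivial element on `S` times an element starting in a disjoint set starts in `S`. -/
theorem startsIn_mul {S T : Set α} (hST : Disjoint S T) {a b : FreeGroup α}
    (ha : a ∈ lettersIn S) (hne : a ≠ 1) (hb : StartsIn T b) : StartsIn S (a * b) := by
  obtain ⟨p, rest, hb, hp⟩ := hb
  obtain ⟨q, ra, hqa, hq⟩ := startsIn_of_mem ha hne
  have hred : IsReduced (a.toWord ++ b.toWord) := by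
    refine List.isChain_append.2 ⟨isReduced_toWord, isReduced_toWord, fun x hx y hy h => ?_⟩
    rw [hb] at hy
    simp only [List.head?_cons, Option.mem_def, Option.some.injEq] at hy
    subst hy
    exact absurd hp (Set.disjoint_left.1 hST (h ▸ ha x (List.mem_of_mem_getLast? hx)))
  refine ⟨q, ra ++ b.toWord, ?_, hq⟩
  rw [toWord_mul, hred.reduce_eq, hqa, List.cons_append]

/-- The disjoint parts of a free group as a free product: an alternating product. -/
theorem startsIn_prod {S : Bool → Set α} (hS : Disjoint (S true) (S false)) :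
    ∀ (b : Bool) (x : FreeGroup α) (l : List (Bool × FreeGroup α)),
      (∀ p ∈ (b, x) :: l, p.2 ∈ lettersIn (S p.1) ∧ p.2 ≠ 1) →
      ((b, x) :: l).IsChain (fun p p' => p.1 ≠ p'.1) →
      StartsIn (S b) (((b, x) :: l).map Prod.snd).prod := by
  intro b x l
  induction l generalizing b x with
  | nil =>
    intro h _
    simpa using startsIn_of_mem (h (b, x) (by simp)).1 (h (b, x) (by simp)).2
  | cons p l ih =>
    intro h hc
    rw [List.isChain_cons_cons] at hc
    have hd : Disjoint (S b) (S p.1) := by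
      rcases p with ⟨c, y⟩
      cases b <;> cases c <;> first | exact absurd rfl hc.1 | exact hS | exact hS.symm
    rw [List.map_cons, List.prod_cons]
    exact startsIn_mul hd (h (b, x) (by simp)).1 (h (b, x) (by simp)).2
      (ih p.1 p.2 (fun q hq => h q (List.mem_cons_of_mem _ hq)) hc.2)

end VP086.Model
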