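import Vale.Agent.P086.Model.Basic
import Vale.Agent.P086.Model.FreeWord

/-!
P086, the model: freeness by supports.
-/

namespace VP086.Model

variable {α : Type} [DecidableEq α]

/-- The vectors supported on the words in the letters of `S`. -/
noncomputable def suppK (S : Set α) : Submodule ℂ (GroupL2 (FreeGroup α)) where
  carrier := {v | ∀ g ∉ lettersIn S, v g = 0}
  add_mem' {v w} hv hw g hg := by
    rw [lp.coeFn_add, Pi.add_apply, hv g hg, hw g hg, add_zero]
  zero_mem' g _ := rfl
  smul_mem' c v hv g hg := by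
    rw [lp.coeFn_smul, Pi.smul_apply, hv g hg, smul_zero]

theorem mem_suppK {S : Set α} {v : GroupL2 (FreeGroup α)} :
    v ∈ suppK S ↔ ∀ g ∉ lettersIn S, v g = 0 := Iff.rfl

theorem isClosed_suppK (S : Set α) : IsClosed (suppK S : Set (GroupL2 (FreeGroup α))) := by
  have e : (suppK S : Set (GroupL2 (FreeGroup α))) = ⋂ g ∈ {g | g ∉ lettersIn S}, {v | v g = 0} := by
    ext v
    simp [mem_suppK]
  rw [e]
  exact isClosed_iInter fun g => isClosed_iInter fun _ =>
    isClosed_eq (lp.evalCLM ℂ (fun _ : FreeGroup α => ℂ) 2 g).continuous continuous_const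

theorem pm_mem_suppK {S : Set α} {g : FreeGroup α} (hg : g ∈ lettersIn S) : pm g ∈ suppK S :=
  mem_suppK.2 fun h hh => pm_ne fun e => hh (by rw [e]; exact hg)

theorem cf_one_apply (g : FreeGroup α) :
    cf (1 : GroupL2 (FreeGroup α) →L[ℂ] GroupL2 (FreeGroup α)) g = if g = 1 then 1 else 0 := by
  show pm 1 g = _
  split
  · next h => rw [h, pm_self]
  · next h => exact pm_ne h

omit [DecidableEq α] in
/-- A nonzero coefficient of a product comes from one of each factor. -/
theorem exists_of_cf_mul_ne {x y : LA (FreeGroup α)} {g : FreeGroup α}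
    (h : cf ((x * y : LA (FreeGroup α)) : GroupL2 (FreeGroup α) →L[ℂ] GroupL2 (FreeGroup α)) g ≠ 0) :
    ∃ a b, a * b = g ∧
      cf (x : GroupL2 (FreeGroup α) →L[ℂ] GroupL2 (FreeGroup α)) a ≠ 0 ∧
      cf (y : GroupL2 (FreeGroup α) →L[ℂ] GroupL2 (FreeGroup α)) b ≠ 0 := by
  by_contra hne
  push Not at hne
  refine h ((hasSum_cf_mul x.2 g).unique (hasSum_zero.congr_fun fun c => ?_))
  by_cases hx : cf (x : GroupL2 (FreeGroup α) →L[ℂ] GroupL2 (FreeGroup α)) (g * c⁻¹) = 0
  · rw [hx, zero_mul]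
  · rw [hne (g * c⁻¹) c (by group) hx, mul_zero]

/-- The elements supported on the words in the letters of `S`. -/
noncomputable def supp (S : Set α) : Subalgebra ℂ (LA (FreeGroup α)) where
  carrier := {x | vec _ x ∈ suppK S}
  mul_mem' {x y} hx hy := by
    refine mem_suppK.2 fun g hg => ?_
    by_contra hne
    obtain ⟨a, b, rfl, ha, hb⟩ := exists_of_cf_mul_ne (x := x) (y := y) hne
    exact hg (mul_mem (by_contra fun h => ha (mem_suppK.1 hx a h))
      (by_contra fun h => hb (mem_suppK.1 hy b h)))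
  add_mem' {x y} hx hy := by
    show vec _ (x + y) ∈ suppK S
    rw [map_add]
    exact add_mem hx hy
  algebraMap_mem' c := by
    show vec _ (algebraMap ℂ (LA (FreeGroup α)) c) ∈ suppK S
    rw [Algebra.algebraMap_eq_smul_one, map_smul]
    exact Submodule.smul_mem _ c (pm_mem_suppK (one_mem _))

theorem mem_supp {S : Set α} {x : LA (FreeGroup α)} : x ∈ supp S ↔ vec _ x ∈ suppK S := Iff.rfl

theorem lamU_mem_supp {S : Set α} {g : FreeGroup α} (hg : g ∈ lettersIn S) :
    (lamU g : LA (FreeGroup α)) ∈ supp S := by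
  rw [mem_supp, vec_lamU]
  exact pm_mem_suppK hg

theorem supp_mono {S T : Set α} (h : S ⊆ T) : supp S ≤ supp T := fun _ hx =>
  mem_suppK.2 fun g hg => mem_suppK.1 hx g fun hg' => hg (lettersIn_mono h hg')

/-- An alternating product of elements without constant term is supported on words starting in
the letters of its first factor. -/
theorem startsIn_of_cf_prod_ne {S : Bool → Set α} (hS : Disjoint (S true) (S false)) :
    ∀ (b : Bool) (x : LA (FreeGroup α)) (l : List (Bool × LA (FreeGroup α))),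
      (∀ p ∈ (b, x) :: l,
        cf (p.2 : GroupL2 (FreeGroup α) →L[ℂ] GroupL2 (FreeGroup α)) 1 = 0 ∧ p.2 ∈ supp (S p.1)) →
      ((b, x) :: l).IsChain (fun p p' => p.1 ≠ p'.1) →
      ∀ g, cf (((((b, x) :: l).map Prod.snd).prod : LA (FreeGroup α)) :
        GroupL2 (FreeGroup α) →L[ℂ] GroupL2 (FreeGroup α)) g ≠ 0 → StartsIn (S b) g := by
  intro b x l
  induction l generalizing b x with
  | nil =>
    intro h _ g hg
    obtain ⟨h1, h2⟩ := h (b, x) (by simp)
    simp only [List.map_cons, List.map_nil, List.prod_cons, List.prod_nil, mul_one] at hg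
    exact startsIn_of_mem (by_contra fun hm => hg (mem_suppK.1 h2 g hm)) fun e => hg (e ▸ h1)
  | cons p l ih =>
    intro h hc g hg
    rw [List.isChain_cons_cons] at hc
    obtain ⟨h1, h2⟩ := h (b, x) (by simp)
    rw [List.map_cons, List.prod_cons] at hg
    obtain ⟨u, v, rfl, hu, hv⟩ := exists_of_cf_mul_ne hg
    have hd : Disjoint (S b) (S p.1) := by
      rcases p with ⟨c, y⟩
      cases b <;> cases c <;> first | exact absurd rfl hc.1 | exact hS | exact hS.symm
    exact startsIn_mul hd (by_contra fun hm => hu (mem_suppK.1 h2 u hm)) (fun e => hu (e ▸ h1))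
      (ih p.1 p.2 (fun q hq => h q (List.mem_cons_of_mem _ hq)) hc.2 v hv)

/-- Algebras supported on disjoint sets of letters are free. -/
theorem isFree_supp {S T : Set α} (h : Disjoint S T) {A₁ A₂ : Set (LA (FreeGroup α))}
    (h₁ : A₁ ⊆ (supp S : Set (LA (FreeGroup α)))) (h₂ : A₂ ⊆ (supp T : Set (LA (FreeGroup α)))) :
    IsFree (std (FreeGroup α)) A₁ A₂ := by
  intro l hl hp hc
  obtain ⟨⟨b, x⟩, l', rfl⟩ := List.exists_cons_of_ne_nil hl
  rw [tau_eq]
  by_contra hne
  refine (startsIn_of_cf_prod_ne (S := fun c => cond c S T) h b x l' (fun p hp' => ?_) hc 1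
    hne).ne_one rfl
  obtain ⟨hp1, hp2⟩ := hp p hp'
  refine ⟨(tau_eq p.2).symm.trans hp1, ?_⟩
  rcases p with ⟨c, y⟩
  cases c
  · exact h₂ hp2
  · exact h₁ hp2

end VP086.Model
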